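import Crest.Agent.N325.Pc.Defs
import Crest.Agent.N325.Lst.ListImpl
import Crest.Agent.N325.Lt.Rp

/-!
# Row 325 (helper75): the programs of the pieces are implementable
-/

set_option autoImplicit false

namespace Crest.Agent.N325.Pc

instance : Rp St := Rp.via fun s => (s.cut, s.pth, s.up, s.cov, s.rt, s.bp, s.mem)

variable {α : Type} [Rp α] {F : α → Fo} {n x y : α → ℕ} {l : α → List ℕ} {so : α → So}

section fields
variable {σ : Bool} {s : α → St}
@[fun_prop] theorem St.pu_cut (h : Pu σ s) : Pu σ fun a => (s a).cut := by impl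
@[fun_prop] theorem St.pu_pth (h : Pu σ s) : Pu σ fun a => (s a).pth := by impl
@[fun_prop] theorem St.pu_up (h : Pu σ s) : Pu σ fun a => (s a).up := by impl
@[fun_prop] theorem St.pu_cov (h : Pu σ s) : Pu σ fun a => (s a).cov := by impl
@[fun_prop] theorem St.pu_rt (h : Pu σ s) : Pu σ fun a => (s a).rt := by impl
@[fun_prop] theorem St.pu_bp (h : Pu σ s) : Pu σ fun a => (s a).bp := by impl
@[fun_prop] theorem St.pu_mem (h : Pu σ s) : Pu σ fun a => (s a).mem := by impl
end fields

@[fun_prop] theorem impl_segR {s : α → St} (hF : Pu true F) (hs : Pu true s) (hx : Pu true x) :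
    Impl fun a => segR (F a) (s a) (x a) := by
  impl

@[fun_prop] theorem impl_spn {p : α → ℕ → Bool} (hp : Pu false fun q : α × ℕ => p q.1 q.2)
    (hl : Pu true l) : Impl fun a => spn (p a) (l a) := by
  impl

@[fun_prop] theorem impl_setE (hx : Pu true x) (hl : Pu true l) (hy : Pu true y)
    (hs : Pu true so) : Impl fun a => setE (x a) (l a) (y a) (so a) := by
  impl

@[fun_prop] theorem impl_mkV (hx : Pu true x) (hs : Pu true so) :
    Impl fun a => mkV (x a) (so a) := by
  impl

@[fun_prop] theorem impl_climb {s : α → St} (hF : Pu true F) (hn : Pu true n) (hx : Pu true x)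
    (hs : Pu true s) : Impl fun a => climb (F a) (n a) (x a) (s a) := by
  impl

@[fun_prop] theorem impl_soft (hF : Pu true F) (hn : Pu true n) (hx : Pu true x)
    (hs : Pu true so) : Impl fun a => soft (F a) (n a) (x a) (so a) := by
  impl

@[fun_prop] theorem impl_reRt {cut : α → Arr Bool} {rt : α → Arr ℕ} (hF : Pu true F)
    (hc : Pu true cut) (hl : Pu true l) (hr : Pu true rt) :
    Impl fun a => reRt (F a) (cut a) (l a) (rt a) := by
  impl

@[fun_prop] theorem impl_fixE (hx : Pu true x) (hs : Pu true so) :
    Impl fun a => fixE (x a) (so a) := by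
  impl

@[fun_prop] theorem impl_hardX (hF : Pu true F) (hl : Pu true l) (hs : Pu true so) :
    Impl fun a => hardX (F a) (l a) (so a) := by
  impl

@[fun_prop] theorem impl_hard (hF : Pu true F) (hl : Pu true l) (hs : Pu true so) :
    Impl fun a => hard (F a) (l a) (so a) := by
  impl

@[fun_prop] theorem impl_build {wt : α → Arr ℕ} (hF : Pu true F) (hw : Pu true wt)
    (hx : Pu true x) (hl : Pu true l) : Impl fun a => build (F a) (wt a) (x a) (l a) := by
  impl

end Crest.Agent.N325.Pc
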