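import Crest.Agent.N325.Pc.Soft

/-! # Row 325 (helper42): pieces — roots, the table of the compressed edges, flatness -/

set_option autoImplicit false
open Finset

namespace Crest.Agent.N325.Pc

open Tw

variable {F : Fo} {V M M' : Finset ℕ} {D K : ℕ} {x y z u : ℕ} {P Q : List ℕ} {wt : ℕ → ℕ}
  {s s' : St} {G G' : Gr} {π : ℕ → ℕ} {cut : ℕ → Bool}

/-! ### roots -/

theorem InvP.rt_cut (I : InvP F V wt K s) (hx : x ∈ V) (h : s.cut.get x = true) :
    s.rt.get x = x := by rw [I.rt x hx, if_pos h]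

theorem InvP.ne_of_uncut (I : InvP F V wt K s) (hx : x ∈ V) (h : s.cut.get x = false) :
    F.par.get x ≠ x := fun e => by rw [I.top x hx e] at h; cases h

/-- the way from a node to the root of its piece -/
theorem InvP.rt_pa (hW : F.WF V D) (I : InvP F V wt K s) (hx : x ∈ V) :
    ∃ P, F.Pa x P (s.rt.get x) ∧ (∀ z ∈ P, s.cut.get z = false) ∧
      s.cut.get (s.rt.get x) = true := by
  refine hW.ind (p := fun x => ∃ P, F.Pa x P (s.rt.get x) ∧ (∀ z ∈ P, s.cut.get z = false) ∧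
      s.cut.get (s.rt.get x) = true) (fun x hx ih => ?_) hx
  cases e : s.cut.get x
  · obtain ⟨P, h1, h2, h3⟩ := ih (I.ne_of_uncut hx e)
    rw [I.rt x hx, if_neg (by simp [e])]
    exact ⟨x :: P, ⟨rfl, I.ne_of_uncut hx e, h1⟩, by simpa [e] using h2, h3⟩
  · rw [I.rt_cut hx e]
    exact ⟨[], rfl, by simp, e⟩

theorem InvP.rt_mem (hW : F.WF V D) (I : InvP F V wt K s) (hx : x ∈ V) : s.rt.get x ∈ V :=
  (I.rt_pa hW hx).elim fun _ h => (h.1.mem hW hx).1

theorem InvP.cut_rt (hW : F.WF V D) (I : InvP F V wt K s) (hx : x ∈ V) :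
    s.cut.get (s.rt.get x) = true := (I.rt_pa hW hx).elim fun _ h => h.2.2

theorem InvP.rt_rt (hW : F.WF V D) (I : InvP F V wt K s) (hx : x ∈ V) :
    s.rt.get (s.rt.get x) = s.rt.get x := I.rt_cut (I.rt_mem hW hx) (I.cut_rt hW hx)

theorem InvP.rt_anc (hW : F.WF V D) (I : InvP F V wt K s) (hx : x ∈ V) : F.Anc x (s.rt.get x) :=
  (I.rt_pa hW hx).elim fun P h => ⟨P, h.1⟩

theorem InvP.bp_rt (hW : F.WF V D) (I : InvP F V wt K s) (hx : x ∈ V) :
    s.bp.get (s.rt.get x) = s.bp.get x :=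
  (I.rt_pa hW hx).elim fun _ h => (I.pa_bp hW h.1 hx h.2.1).1

/-- the root lies below every marked ancestor -/
theorem InvP.rt_below (hW : F.WF V D) (I : InvP F V wt K s) (hx : x ∈ V) (h : F.Anc x y)
    (hy : s.cut.get y = true) : F.Anc (s.rt.get x) y := by
  obtain ⟨P, h⟩ := h
  obtain ⟨Q, h1, h2, -⟩ := I.rt_pa hW hx
  rcases h.prefix h1 with ⟨P', -, k⟩ | k
  · exact ⟨P', k⟩
  · rw [h2 y k] at hy; cases hy

/-- either the ancestor `y` is in the piece of `x`, or a mark lies between them -/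
theorem InvP.same_or (hW : F.WF V D) (I : InvP F V wt K s) (hx : x ∈ V) (h : F.Anc x y) :
    s.rt.get y = s.rt.get x ∨ ∃ z ∈ V, F.Anc x z ∧ F.Anc z y ∧ s.cut.get z = true ∧
      F.par.get z ≠ z := by
  obtain ⟨P, h⟩ := h
  by_cases k : ∀ z ∈ P, s.cut.get z = false
  · exact Or.inl (I.pa_bp hW h hx k).2.1
  · push Not at k
    obtain ⟨z, hz, k⟩ := k
    obtain ⟨A, B, rfl⟩ := List.append_of_mem hz
    exact Or.inr ⟨z, ((h.mem hW hx).2 z hz).1, ⟨A, h.split.1⟩, ⟨_, h.split.2⟩, by simpa using k,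
      ((h.mem hW hx).2 z hz).2⟩

/-- the weight of a piece -/
theorem InvP.piece_wt (hW : F.WF V D) (I : InvP F V wt K s) (r : ℕ) :
    ∑ x ∈ V with s.rt.get x = r, wt x ≤ K := by
  refine le_trans ?_ (I.sz (s.bp.get r))
  rw [← List.sum_toFinset _ (I.nd _)]
  refine sum_le_sum_of_subset fun x hx => ?_
  obtain ⟨h1, h2⟩ := mem_filter.1 hx
  exact List.mem_toFinset.2 ((I.mem _ x).2 ⟨h1, by rw [← h2, I.bp_rt hW h1]⟩)

/-- more marks refine the pieces -/
theorem InvP.refine {wt' : ℕ → ℕ} {K' : ℕ} (hW : F.WF V D) (I : InvP F V wt K s)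
    (I' : InvP F V wt' K' s') (hc : ∀ x ∈ V, s.cut.get x = true → s'.cut.get x = true)
    (hx : x ∈ V) : s.rt.get (s'.rt.get x) = s.rt.get x ∧
      (s'.rt.get x = s.rt.get x ∨ s.cut.get (s'.rt.get x) = false) := by
  obtain ⟨P, h1, h2, -⟩ := I'.rt_pa hW hx
  have k := (I.pa_bp hW h1 hx fun z hz => by
    have := h2 z hz
    cases e : s.cut.get z
    · rfl
    · rw [hc z ((h1.mem hW hx).2 z hz).1 e] at this; cases this).2.1
  refine ⟨k, ?_⟩
  cases e : s.cut.get (s'.rt.get x)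
  · exact Or.inr rfl
  · exact Or.inl ((I.rt_cut (I'.rt_mem hW hx) e).symm.trans k)

/-- the form for the batch spanner: `X` = the new marks -/
theorem InvP.refine' {X : List ℕ} (hW : F.WF V D) (I : InvP F V wt K s) (I' : InvP F V wt K s')
    (hc : ∀ x, s'.cut.get x = (s.cut.get x || decide (x ∈ X))) (hx : x ∈ V) :
    s.rt.get (s'.rt.get x) = s.rt.get x ∧
      (s'.rt.get x = s.rt.get x ∨ s'.rt.get x ∈ X ∧ s.rt.get x ∈ X.map s.rt.get) := by
  obtain ⟨h1, h2⟩ := I.refine hW I' (fun x _ h => by simp [hc, h]) hx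
  refine ⟨h1, h2.imp_right fun h => ?_⟩
  have := I'.cut_rt hW hx
  rw [hc, h] at this
  have k : s'.rt.get x ∈ X := by simpa using this
  exact ⟨k, h1 ▸ List.mem_map_of_mem k⟩

/-- **objects between different pieces**: the common ancestor `m` is marked -/
theorem Inv.lam {a b m : ℕ} (hW : F.WF V D) (I : Inv F V wt K M s) (ha : a ∈ V) (hb : b ∈ V)
    (h1 : F.Anc a m) (h2 : F.Anc b m)
    (hm : ∀ x, F.Anc a x ∨ F.Anc b x → F.Anc x m → m ∈ F.cl.get x)
    (hne : s.rt.get a ≠ s.rt.get b) :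
    m ∈ M ∧ s.cut.get m = true ∧ F.Anc (s.rt.get a) m ∧ F.H.get m ≤ F.H.get (s.rt.get a) ∧
      s.rt.get a ∈ M := by
  have hmV := h1.mem hW ha
  have k : m ∈ M := by
    rcases I.p.same_or hW ha h1 with e1 | ⟨z, hz, j1, j2, j3, j4⟩
    · rcases I.p.same_or hW hb h2 with e2 | ⟨z, hz, j1, j2, j3, j4⟩
      · exact absurd (e1.symm.trans e2) hne
      · exact I.cl z (((I.mrk z hz).1 j3).resolve_right j4) m (hm z (Or.inr j1) j2)
    · exact I.cl z (((I.mrk z hz).1 j3).resolve_right j4) m (hm z (Or.inl j1) j2)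
  have k1 := (I.mrk m hmV).2 (Or.inl k)
  have k2 := I.p.rt_below hW ha h1 k1
  have k3 := I.p.rt_mem hW ha
  refine ⟨k, k1, k2, k2.elim fun _ h => (h.lp hW k3).1, ?_⟩
  rcases (I.mrk _ k3).1 (I.p.cut_rt hW ha) with j | j
  · exact j
  · rw [← k2.eq_of_top j]; exact k

/-! ### the table -/

theorem InvE.owner {B : List ℕ} (E : InvE F V K B s) {v : ℕ} (h : z ∈ s.pth.get u)
    (k : z ∈ s.pth.get v) : u = v := by
  have := (E.cov z u).2 h; have := (E.cov z v).2 k; omega

theorem InvE.self_mem {B : List ℕ} (E : InvE F V K B s) (h : s.pth.get u ≠ []) :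
    u ∈ s.pth.get u := (E.pa u h).2.head h

/-- a vertex is not an inner node of a compressed edge -/
theorem InvE.vt_eq (E : InvE F V K [] s) (hy : s.Vt y) (h : y ∈ s.pth.get u) : y = u := by
  rcases hy with k | k
  · rw [E.uncut h] at k; cases k
  · exact E.owner (E.self_mem k) h

theorem seg_eq_some {d : Ed} {w : Wk} : seg F s u = some (d, w) ↔ s.pth.get u ≠ [] ∧
    F.H.get (s.up.get u) < F.H.get u ∧ d = F.ed u (s.up.get u) ∧ w = F.wk (s.pth.get u) := by
  unfold seg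
  split_ifs with h
  · simp [h.1, h.2, eq_comm]
  · simp only [false_iff]; tauto

theorem seg_eq_none (h : s.pth.get u = []) : seg F s u = none := by simp [seg, h]

/-- **the entries of the table are walks of `G`** -/
theorem InvE.seg_ok {d : Ed} {w : Wk} (hW : F.WF V D) (hL : F.Lab V G π s.cut.get)
    (E : InvE F V K [] s) (h : seg F s u = some (d, w)) :
    u ∈ V ∧ s.up.get u ∈ V ∧ d = F.ed u (s.up.get u) ∧ 1 ≤ d.l ∧ d.l ≤ F.H.get u ∧
      WOk K G d.l w ∧ Tel G.ed w (π (s.up.get u)) (π u) ∧ d.g = wg G.ed w := by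
  obtain ⟨h1, h2, rfl, rfl⟩ := seg_eq_some.1 h
  obtain ⟨k1, k2⟩ := E.pa u h1
  obtain ⟨j1, j2, j3, j4, j5⟩ := k2.walk hW hL k1 fun z hz => E.uncut hz
  have := E.len u
  refine ⟨k1, (k2.mem hW k1).1, rfl, ?_, ?_, ⟨j1, by omega, ?_⟩, j3, ?_⟩ <;> dsimp only [Fo.ed] <;>
    omega

theorem mult_wk (P : List ℕ) (e : ℕ) :
    mult (F.wk P) e = P.countP fun x => decide (∃ b, F.pe.get x = some (e, b)) := by
  induction P with
  | nil => rfl
  | cons x P ih =>
    rw [wk_cons, mult_append, ih, List.countP_cons]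
    congr 1
    rcases F.pe.get x with _ | ⟨e', b⟩
    · simp [mult]
    · by_cases h : e' = e <;> simp [mult, h]

/-- **every tree edge is used at most once**; `tc` lists the copies of the edge `e` -/
theorem InvE.use {B : List ℕ} (hW : F.WF V D) (E : InvE F V K B s) (I : Finset ℕ) (e : ℕ)
    {tc : List ℕ} (h : ∀ x ∈ V, ∀ b, F.pe.get x = some (e, b) → x ∈ tc) :
    ∑ u ∈ I, mult (F.wk (s.pth.get u)) e ≤ tc.length := by
  classical
  have k : ∀ u, mult (F.wk (s.pth.get u)) e ≤ (tc.toFinset.filter (· ∈ s.pth.get u)).card := by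
    intro u
    by_cases hu : s.pth.get u = []
    · simp [hu, mult]
    obtain ⟨k1, k2⟩ := E.pa u hu
    rw [mult_wk, List.countP_eq_length_filter,
      ← List.toFinset_card_of_nodup ((k2.nodup hW k1).filter _)]
    refine card_le_card fun x hx => ?_
    simp only [List.mem_toFinset, List.mem_filter, decide_eq_true_eq, mem_filter] at hx ⊢
    exact ⟨hx.2.elim fun b j => h x ((k2.mem hW k1).2 x hx.1).1 b j, hx.1⟩
  refine (sum_le_sum fun u _ => k u).trans ?_
  rw [← card_biUnion]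
  · exact (card_le_card (biUnion_subset.2 fun _ _ => filter_subset _ _)).trans
      (List.toFinset_card_le _)
  · intro u _ v _ huv
    exact disjoint_filter.2 fun x _ h1 h2 => huv (E.owner h1 h2)

/-- **flatness along a way between two vertices** -/
theorem InvE.flat (hW : F.WF V D) (E : InvE F V K [] s) (hE : s.End) {ζ : ℕ → ℝ} {θ : ℝ}
    (hz : ∀ u d w, seg F s u = some (d, w) → |(d.g : ℝ) - (ζ d.b - ζ d.a)| ≤ θ * d.l)
    (hx : x ∈ V) (vx : s.Vt x) (vy : s.Vt y) (h : F.Pa x P y) (hc : ∀ z ∈ P, s.cut.get z = false) :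
    |((F.G.get x : ℝ) - F.G.get y) - (ζ (F.nm.get x) - ζ (F.nm.get y))|
      ≤ θ * ((F.H.get x : ℝ) - F.H.get y) := by
  induction e : P.length using Nat.strong_induction_on generalizing x P with
  | _ n ih =>
  by_cases hP : P = []
  · subst hP; rw [pa_nil.1 h]; simp
  have h1 : s.pth.get x ≠ [] := vx.resolve_left (by simp [hc x (h.head hP)])
  have h2 := (E.pa x h1).2
  rcases h.prefix h2 with ⟨P', e', k⟩ | k
  · have k1 := ih P'.length (by
      rw [← e, e', List.length_append]; have := List.length_pos_iff.2 h1; omega)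
      (h2.mem hW hx).1 (hE x h1) k (fun z j => hc z (e' ▸ List.mem_append_right _ j)) rfl
    have k2 := h2.lp hW hx
    rcases k2.1.lt_or_eq with j | j
    · have k3 := hz x _ _ (seg_eq_some.2 ⟨h1, j, rfl, rfl⟩)
      simp only [Fo.ed, Int.cast_sub, Nat.cast_sub k2.1] at k3
      rw [abs_le] at k1 k3 ⊢
      constructor <;> linarith [k1.1, k1.2, k3.1, k3.2]
    · rw [← j, ← (k2.2 j).1, ← (k2.2 j).2]; exact k1
  · rw [E.vt_eq vy k] at h
    exact absurd (h.head hP) (h.not_mem hW hx)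

/-- flatness from a vertex to an ancestor vertex in the same piece -/
theorem Inv.flat (hW : F.WF V D) (I : Inv F V wt K M s) {ζ : ℕ → ℝ} {θ : ℝ}
    (hz : ∀ u d w, seg F s u = some (d, w) → |(d.g : ℝ) - (ζ d.b - ζ d.a)| ≤ θ * d.l)
    (hx : x ∈ V) (vx : s.Vt x) (vy : s.Vt y) (h : F.Anc x y) (e : s.rt.get y = s.rt.get x) :
    |((F.G.get x : ℝ) - F.G.get y) - (ζ (F.nm.get x) - ζ (F.nm.get y))|
      ≤ θ * ((F.H.get x : ℝ) - F.H.get y) := by
  obtain ⟨P, h⟩ := h
  refine I.e.flat hW I.fin hz hx vx vy h fun z hz => ?_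
  obtain ⟨Q, h1, h2, -⟩ := I.p.rt_pa hW hx
  obtain ⟨Q', h3, -, -⟩ := I.p.rt_pa hW (h.mem hW hx).1
  rw [e] at h3
  rcases h1.prefix h with ⟨P', e', -⟩ | k
  · exact h2 z (e' ▸ List.mem_append_left _ hz)
  · obtain ⟨A, B, rfl⟩ := List.append_of_mem k
    exact absurd List.mem_cons_self
      (fun j => (h.split.2.trans h3).not_mem hW (I.p.rt_mem hW hx) (List.mem_append_left _ j))

/-- flatness from a vertex to the root of its piece -/
theorem Inv.flat_rt (hW : F.WF V D) (I : Inv F V wt K M s) {ζ : ℕ → ℝ} {θ : ℝ}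
    (hz : ∀ u d w, seg F s u = some (d, w) → |(d.g : ℝ) - (ζ d.b - ζ d.a)| ≤ θ * d.l)
    (hx : x ∈ V) (vx : s.Vt x) :
    |((F.G.get x : ℝ) - F.G.get (s.rt.get x)) - (ζ (F.nm.get x) - ζ (F.nm.get (s.rt.get x)))|
      ≤ θ * ((F.H.get x : ℝ) - F.H.get (s.rt.get x)) :=
  I.flat hW hz hx vx (Or.inl (I.p.cut_rt hW hx)) (I.p.rt_anc hW hx) (I.p.rt_rt hW hx)

/-! ### the lifted forest -/

theorem wsum_congr {f f' : ℕ → ℤ} {w : Wk} (h : ∀ a ∈ w, f' a.1 = f a.1) : wsum f' w = wsum f w :=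
  congrArg List.sum (List.map_congr_left fun a ha => by rw [h a ha])

/-- the labels stay valid when their edges do not change -/
theorem Fo.Lab.regraph {cut' : ℕ → Bool} (h : F.Lab V G π cut)
    (k : ∀ x ∈ V, cut' x = false → cut x = false ∧
      ∀ a ∈ F.pe.get x, a.1 ∈ G'.E ∧ G'.ed a.1 = G.ed a.1) : F.Lab V G' π cut' := by
  intro x hx hc
  obtain ⟨k1, k2⟩ := k x hx hc
  obtain ⟨-, j2, j3, j4⟩ := h x hx k1
  have k3 : ∀ a ∈ (F.pe.get x).toList, G'.ed a.1 = G.ed a.1 := fun a ha =>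
    (k2 a (Option.mem_toList.1 ha)).2
  refine ⟨fun a ha => (k2 a ha).1, fun z => ?_, ?_, ?_⟩
  · rw [← j2 z]; exact wsum_congr fun a ha => by simp only [dz, k3 a ha]
  · rwa [show wl G'.ed (F.pe.get x).toList = wl G.ed (F.pe.get x).toList from
      congrArg List.sum (List.map_congr_left fun a ha => by rw [k3 a ha])]
  · rwa [show wg G'.ed (F.pe.get x).toList = wg G.ed (F.pe.get x).toList from
      wsum_congr fun a ha => by rw [k3 a ha]]

theorem pl_split {par : ℕ → ℕ} {l m : List ℕ} (h : Lt.PL par (l ++ x :: m)) :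
    par x = x ∨ par x ∈ m := by
  induction l with
  | nil => exact h.1
  | cons a l ih => exact ih h.2

theorem pl_rank {par : ℕ → ℕ} {l : List ℕ} (h : Lt.PL par l) (hn : l.Nodup) :
    ∃ dp : ℕ → ℕ, ∀ x ∈ l, par x ≠ x → dp (par x) < dp x := by
  induction l with
  | nil => exact ⟨id, by simp⟩
  | cons a l ih =>
    obtain ⟨dp, k⟩ := ih h.2 (List.nodup_cons.1 hn).2
    have ha := (List.nodup_cons.1 hn).1
    refine ⟨Function.update dp a (dp (par a) + 1), fun x hx hp => ?_⟩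
    rcases List.mem_cons.1 hx with rfl | hx
    · simp [Function.update_of_ne hp]
    · obtain ⟨A, B, e⟩ := List.append_of_mem hx
      have j : par x ∈ l := e ▸ List.mem_append_right _ (List.mem_cons_of_mem _
        ((pl_split (e ▸ h.2)).resolve_left hp))
      rw [Function.update_of_ne fun e' : par x = a => ha (e' ▸ j),
        Function.update_of_ne fun e' : x = a => ha (e' ▸ hx)]
      exact k x hx hp

variable {p : Lt.Pm} {m nb : ℕ}

theorem ord_of_ok (h : F.Ok G p m nb) : Ord F F.ord.toFinset F.ord :=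
  ⟨h.nd, by simp, fun _ _ _ e hp => (pl_split (e ▸ h.pl)).resolve_left hp⟩

theorem wf_of_ok (h : F.Ok G p m nb) (hl : ∀ e ∈ G.E, 1 ≤ (G.ed e).l) :
    F.WF F.ord.toFinset (p.D + 2) := by
  refine ⟨fun x hx => ?_, by simpa using pl_rank h.pl h.nd, fun x hx => ?_, fun x hx e => ?_,
    by simpa using h.cl⟩ <;> rw [List.mem_toFinset] at hx
  · obtain ⟨A, B, e⟩ := List.append_of_mem hx
    rcases pl_split (e ▸ h.pl) with k | k
    · rw [k]; simpa using hx
    · simp [e, k]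
  · cases e : F.pe.get x with
    | none => have := h.dum x hx e; omega
    | some a => have := (h.real x hx a e).2; omega
  · cases e' : F.pe.get x with
    | none =>
      have k := h.grad x hx
      rw [e'] at k
      exact ⟨((h.dum x hx e').resolve_left (by omega)).2.symm, by simpa [wg, wsum] using k.symm⟩
    | some a => have := h.real x hx a e'; have := hl _ this.1; omega

theorem lab_of_ok (h : F.Ok G p m nb) (cut : ℕ → Bool) :
    F.Lab F.ord.toFinset G (fun x => Lt.vq G.ed (p.ps x)) cut := by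
  intro x hx _
  rw [List.mem_toFinset] at hx
  refine ⟨fun a ha => (h.real x hx a ha).1, h.tel x hx, ?_, h.grad x hx⟩
  cases e : F.pe.get x with
  | none => have := h.dum x hx e; simp [wl]; omega
  | some a => have := (h.real x hx a e).2; simp [wl]; omega

/-- a node and its name give the same potential -/
theorem Inv.rt_nm (h : F.Ok G p m nb) (hW : F.WF F.ord.toFinset D)
    (I : Inv F F.ord.toFinset wt K M s) (hx : x ∈ F.ord) :
    F.nm.get (s.rt.get x) = F.nm.get (s.rt.get (F.nm.get x)) ∧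
      F.G.get (s.rt.get x) = F.G.get (s.rt.get (F.nm.get x)) ∧
      F.H.get (s.rt.get x) = F.H.get (s.rt.get (F.nm.get x)) := by
  have hV := List.mem_toFinset.2 hx
  obtain ⟨n1, n2, -, -, n5, n6, n7, -, n9⟩ := h.nm x hx
  have a1 : F.Anc x (F.nm.get x) := anc_iff.2 n7
  rcases I.p.same_or hW hV a1 with e | ⟨z, hz, j1, j2, j3, j4⟩
  · rw [e]; exact ⟨rfl, rfl, rfl⟩
  have key : ∀ y ∈ F.ord.toFinset, F.Anc x y → F.Anc y (F.nm.get x) → F.nm.get y = F.nm.get x ∧
      F.G.get y = F.G.get x ∧ F.H.get y = F.H.get x := fun y hy ⟨_, b1⟩ ⟨_, b2⟩ => by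
    have c1 := b1.lp hW hV
    have c2 := (b2.lp hW hy).1
    have c3 : F.H.get y = F.H.get x := by omega
    exact ⟨(c1.2 c3).1, (c1.2 c3).2, c3⟩
  have k1 : s.cut.get (F.nm.get x) = true := by
    refine (I.mrk _ (List.mem_toFinset.2 n1)).2 (Or.inl (I.cl z
      (((I.mrk z hz).1 j3).resolve_right j4) _ ?_))
    rw [← (key z hz j1 j2).1]
    exact (h.nm z (List.mem_toFinset.1 hz)).2.2.2.2.2.2.2.1
  obtain ⟨d1, d2, d3⟩ := key _ (I.p.rt_mem hW hV) (I.p.rt_anc hW hV) (I.p.rt_below hW hV a1 k1)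
  rw [I.p.rt_cut (List.mem_toFinset.2 n1) k1, d1, d2, d3, n2, n5, n6]
  exact ⟨rfl, rfl, rfl⟩

end Crest.Agent.N325.Pc
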