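import Crest.Agent.N325.Pc.Defs

/-! # Row 325 (helper42): pieces — ways, updates, `spn` and `setE` -/

set_option autoImplicit false
open Finset

namespace Crest.Agent.N325.Pc

open Tw

variable {F : Fo} {V : Finset ℕ} {D K : ℕ} {x y z u : ℕ} {P Q : List ℕ}

@[simp] theorem pa_nil : F.Pa x [] y ↔ x = y := Iff.rfl
@[simp] theorem pa_cons : F.Pa x (z :: P) y ↔
    z = x ∧ F.par.get x ≠ x ∧ F.Pa (F.par.get x) P y := Iff.rfl

theorem pa_append : F.Pa x (P ++ Q) z ↔ ∃ y, F.Pa x P y ∧ F.Pa y Q z := by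
  induction P generalizing x with
  | nil => simp
  | cons a P ih => simp only [List.cons_append, pa_cons, ih]; tauto

theorem Fo.Pa.trans (h : F.Pa x P y) (k : F.Pa y Q z) : F.Pa x (P ++ Q) z :=
  pa_append.2 ⟨y, h, k⟩

theorem Fo.Pa.snoc (h : F.Pa x P y) (hy : F.par.get y ≠ y) : F.Pa x (P ++ [y]) (F.par.get y) :=
  h.trans ⟨rfl, hy, rfl⟩

theorem Fo.Pa.head (h : F.Pa x P y) (hP : P ≠ []) : x ∈ P := by
  cases P with
  | nil => exact absurd rfl hP
  | cons a P => exact h.1 ▸ List.mem_cons_self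

theorem Fo.Pa.unique (h : F.Pa x P y) (k : F.Pa x P z) : y = z := by
  induction P generalizing x with
  | nil => exact h.symm.trans k
  | cons a P ih => exact ih h.2.2 k.2.2

theorem Fo.Pa.mem (hW : F.WF V D) (h : F.Pa x P y) (hx : x ∈ V) :
    y ∈ V ∧ ∀ z ∈ P, z ∈ V ∧ F.par.get z ≠ z := by
  induction P generalizing x with
  | nil => exact ⟨h ▸ hx, by simp⟩
  | cons a P ih =>
    obtain ⟨rfl, h1, h2⟩ := h
    have k := ih h2 (hW.par _ hx)
    refine ⟨k.1, fun z hz => ?_⟩
    rcases List.mem_cons.1 hz with rfl | hz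
    · exact ⟨hx, h1⟩
    · exact k.2 z hz

theorem Fo.Pa.rk (hW : F.WF V D) {dp : ℕ → ℕ}
    (hd : ∀ x ∈ V, F.par.get x ≠ x → dp (F.par.get x) < dp x) (h : F.Pa x P y) (hx : x ∈ V) :
    dp y + P.length ≤ dp x ∧ ∀ z ∈ P, dp y < dp z ∧ dp z ≤ dp x := by
  induction P generalizing x with
  | nil => exact ⟨by rw [pa_nil.1 h]; simp, by simp⟩
  | cons a P ih =>
    obtain ⟨rfl, h1, h2⟩ := h
    have k := ih h2 (hW.par _ hx)
    have k1 := hd _ hx h1
    refine ⟨by rw [List.length_cons]; omega, fun z hz => ?_⟩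
    rcases List.mem_cons.1 hz with rfl | hz
    · omega
    · have := k.2 z hz; omega

theorem Fo.Pa.nodup (hW : F.WF V D) (h : F.Pa x P y) (hx : x ∈ V) : P.Nodup := by
  obtain ⟨dp, hd⟩ := hW.rk
  induction P generalizing x with
  | nil => exact List.nodup_nil
  | cons a P ih =>
    obtain ⟨rfl, h1, h2⟩ := h
    refine List.nodup_cons.2 ⟨fun k => ?_, ih h2 (hW.par _ hx)⟩
    have k1 := ((h2.rk hW hd (hW.par _ hx)).2 _ k).2
    have := hd _ hx h1
    omega

theorem Fo.Pa.not_mem (hW : F.WF V D) (h : F.Pa x P y) (hx : x ∈ V) : y ∉ P := fun k =>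
  hW.rk.elim fun _ hd => lt_irrefl _ ((h.rk hW hd hx).2 y k).1

/-- heights along a way; ways of height `0` keep the name and the gradient -/
theorem Fo.Pa.lp (hW : F.WF V D) (h : F.Pa x P y) (hx : x ∈ V) : F.H.get y ≤ F.H.get x ∧
    (F.H.get y = F.H.get x → F.nm.get y = F.nm.get x ∧ F.G.get y = F.G.get x) := by
  induction P generalizing x with
  | nil => rw [pa_nil.1 h]; simp
  | cons a P ih =>
    obtain ⟨rfl, -, h2⟩ := h
    have k := ih h2 (hW.par _ hx)
    have k1 := hW.lp _ hx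
    refine ⟨by omega, fun e => ?_⟩
    have k2 := hW.zero _ hx (by omega)
    have k3 := k.2 (by omega)
    exact ⟨k3.1.trans k2.1, k3.2.trans k2.2⟩

/-- two ways from the same node -/
theorem Fo.Pa.prefix (h : F.Pa x P y) (k : F.Pa x Q z) :
    (∃ P', P = Q ++ P' ∧ F.Pa z P' y) ∨ y ∈ Q := by
  induction Q generalizing x P with
  | nil => exact Or.inl ⟨P, rfl, pa_nil.1 k ▸ h⟩
  | cons a Q ih =>
    obtain ⟨rfl, -, k2⟩ := k
    cases P with
    | nil => exact Or.inr (pa_nil.1 h ▸ List.mem_cons_self)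
    | cons b P =>
      obtain ⟨rfl, -, h2⟩ := h
      rcases ih h2 k2 with ⟨P', e, j⟩ | j
      · exact Or.inl ⟨P', by rw [e]; rfl, j⟩
      · exact Or.inr (List.mem_cons_of_mem _ j)

/-- the first node of the second part of a way -/
theorem Fo.Pa.split (h : F.Pa x (P ++ z :: Q) y) : F.Pa x P z ∧ F.Pa z (z :: Q) y := by
  obtain ⟨w, h1, h2⟩ := pa_append.1 h
  obtain rfl := h2.1
  exact ⟨h1, h2⟩

theorem Fo.Anc.refl (F : Fo) (x : ℕ) : F.Anc x x := ⟨[], rfl⟩

theorem Fo.Anc.trans (h : F.Anc x y) (k : F.Anc y z) : F.Anc x z :=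
  h.elim fun _ h => k.elim fun _ k => ⟨_, h.trans k⟩

theorem Fo.anc_par (F : Fo) (x : ℕ) : F.Anc x (F.par.get x) := by
  by_cases h : F.par.get x = x
  · rw [h]; exact Fo.Anc.refl F x
  · exact ⟨[x], rfl, h, rfl⟩

theorem Fo.Anc.eq_of_top (h : F.Anc x y) (hx : F.par.get x = x) : y = x := by
  obtain ⟨P, h⟩ := h
  cases P with
  | nil => exact h.symm
  | cons a P => exact absurd hx h.2.1

theorem Fo.Anc.mem (hW : F.WF V D) (h : F.Anc x y) (hx : x ∈ V) : y ∈ V :=
  h.elim fun _ h => (h.mem hW hx).1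

theorem anc_iff : F.Anc x y ↔ Lt.Anc F.par.get x y := by
  constructor
  · rintro ⟨P, h⟩
    induction P generalizing x with
    | nil => exact ⟨0, h⟩
    | cons a P ih => exact (ih h.2.2).elim fun k e => ⟨k + 1, e⟩
  · rintro ⟨k, e⟩
    induction k generalizing x with
    | zero => exact ⟨[], e⟩
    | succ k ih => exact (F.anc_par x).trans (ih e)

/-- induction from the top -/
theorem Fo.WF.ind (hW : F.WF V D) {p : ℕ → Prop}
    (h : ∀ x ∈ V, (F.par.get x ≠ x → p (F.par.get x)) → p x) (hx : x ∈ V) : p x := by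
  obtain ⟨dp, hd⟩ := hW.rk
  induction e : dp x using Nat.strong_induction_on generalizing x with
  | _ n ih => exact h x hx fun k => ih _ (e ▸ hd x hx k) (hW.par x hx) rfl

/-- a way without marks lies in one piece of the construction -/
theorem InvP.bp_par {wt : ℕ → ℕ} {s : St} (I : InvP F V wt K s) (hx : x ∈ V)
    (hc : s.cut.get x = false) : s.bp.get (F.par.get x) = s.bp.get x := by
  obtain ⟨l, m, e⟩ := List.append_of_mem ((I.mem (s.bp.get x) x).2 ⟨hx, rfl⟩)
  have := I.td _ l x m e hc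
  exact ((I.mem _ _).1 (e ▸ List.mem_append_left _ this)).2

theorem InvP.len_mem {wt : ℕ → ℕ} {s : St} (I : InvP F V wt K s) (r : ℕ) :
    (s.mem.get r).length ≤ K := by
  refine le_trans ?_ (I.sz r)
  rw [← List.length_map (f := wt)]
  refine List.length_le_sum_of_one_le _ fun i hi => ?_
  obtain ⟨y, hy, rfl⟩ := List.mem_map.1 hi
  exact I.one y ((I.mem r y).1 hy).1

theorem InvP.pa_bp {wt : ℕ → ℕ} {s : St} (hW : F.WF V D) (I : InvP F V wt K s) (h : F.Pa x P y)
    (hx : x ∈ V) (hc : ∀ z ∈ P, s.cut.get z = false) :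
    s.bp.get y = s.bp.get x ∧ s.rt.get y = s.rt.get x ∧ ∀ z ∈ P, s.bp.get z = s.bp.get x := by
  induction P generalizing x with
  | nil => rw [pa_nil.1 h]; simp
  | cons a P ih =>
    obtain ⟨rfl, -, h2⟩ := h
    have k := ih h2 (hW.par _ hx) fun z hz => hc z (List.mem_cons_of_mem _ hz)
    have k0 := hc a List.mem_cons_self
    have k1 := I.bp_par hx k0
    have k2 := I.rt a hx
    rw [if_neg (by simp [k0])] at k2
    refine ⟨k.1.trans k1, k.2.1.trans k2.symm, fun z hz => ?_⟩
    rcases List.mem_cons.1 hz with rfl | hz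
    · rfl
    · exact (k.2.2 z hz).trans k1

theorem InvP.pa_len {wt : ℕ → ℕ} {s : St} (hW : F.WF V D) (I : InvP F V wt K s) (h : F.Pa x P y)
    (hx : x ∈ V) (hc : ∀ z ∈ P, s.cut.get z = false) : P.length ≤ K :=
  le_trans (List.Nodup.subperm (h.nodup hW hx) fun z hz => (I.mem (s.bp.get x) z).2
    ⟨((h.mem hW hx).2 z hz).1, (I.pa_bp hW h hx hc).2.2 z hz⟩).length_le (I.len_mem _)

/-! ### walks -/

theorem wsum_append (f : ℕ → ℤ) (a b : Wk) : wsum f (a ++ b) = wsum f a + wsum f b := by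
  simp [wsum]

theorem wl_append (ed : ℕ → Ed) (a b : Wk) : wl ed (a ++ b) = wl ed a + wl ed b := by simp [wl]

theorem mult_append (a b : Wk) (e : ℕ) : mult (a ++ b) e = mult a e + mult b e := by simp [mult]

variable {G : Gr} {π : ℕ → ℕ} {cut : ℕ → Bool}

theorem Fo.Lab.mono {cut' : ℕ → Bool} (h : F.Lab V G π cut)
    (k : ∀ x ∈ V, cut x = true → cut' x = true) : F.Lab V G π cut' := fun x hx hc => h x hx (by
  cases e : cut x
  · rfl
  · rw [k x hx e] at hc; cases hc)

@[simp] theorem wk_nil : F.wk [] = [] := rfl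

theorem wk_cons : F.wk (x :: P) = F.wk P ++ (F.pe.get x).toList := by
  unfold Fo.wk
  cases e : F.pe.get x <;> simp [e]

/-- the walk of a way without marks -/
theorem Fo.Pa.walk (hW : F.WF V D) (hL : F.Lab V G π cut) (h : F.Pa x P y) (hx : x ∈ V)
    (hc : ∀ z ∈ P, cut z = false) :
    (∀ a ∈ F.wk P, a.1 ∈ G.E) ∧ (F.wk P).length ≤ P.length ∧ Tel G.ed (F.wk P) (π y) (π x) ∧
    F.H.get y + wl G.ed (F.wk P) ≤ F.H.get x ∧ F.G.get x = F.G.get y + wg G.ed (F.wk P) := by
  induction P generalizing x with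
  | nil => rw [pa_nil.1 h]; simp [Tel, wsum, wl, wg]
  | cons a P ih =>
    obtain ⟨rfl, -, h2⟩ := h
    obtain ⟨k1, k2, k3, k4, k5⟩ := ih h2 (hW.par _ hx) fun z hz => hc z (List.mem_cons_of_mem _ hz)
    obtain ⟨j1, j3, j4, j5⟩ := hL a hx (hc a List.mem_cons_self)
    have j2 : (F.pe.get a).toList.length ≤ 1 := by cases F.pe.get a <;> simp
    rw [wk_cons]
    refine ⟨fun b hb => (List.mem_append.1 hb).elim (k1 b) fun j => j1 b (Option.mem_toList.1 j),
      ?_, fun z => ?_, ?_, ?_⟩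
    · rw [List.length_append, List.length_cons]; omega
    · rw [wsum_append, j3 z, k3 z]; ring
    · rw [wl_append]; omega
    · unfold wg at *; rw [wsum_append]; omega

/-! ### dirty lists -/

theorem Off.refl (V : Finset ℕ) (s : St) : Off V s s [] := ⟨by simp, fun _ _ => ⟨rfl, rfl⟩⟩

theorem Off.of_eq {s s' : St} (h1 : s'.pth = s.pth) (h2 : s'.up = s.up) : Off V s s' [] :=
  ⟨by simp, fun _ _ => by rw [h1, h2]; exact ⟨rfl, rfl⟩⟩

theorem Off.trans {s s1 s2 : St} {n m : List ℕ} (h : Off V s s1 n) (k : Off V s1 s2 m) :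
    Off V s s2 (m ++ n) :=
  ⟨fun u hu => (List.mem_append.1 hu).elim (k.ids u) (h.ids u), fun u hu => by
    rw [List.mem_append, not_or] at hu
    exact ⟨(k.eq u hu.1).1.trans (h.eq u hu.2).1, (k.eq u hu.1).2.trans (h.eq u hu.2).2⟩⟩

/-- the table does not change off the dirty list -/
theorem Off.seg {s s' : St} {n : List ℕ} (h : Off V s s' n) (hu : u ∉ n) :
    seg F s' u = seg F s u := by
  unfold Pc.seg
  rw [(h.eq u hu).1, (h.eq u hu).2]

/-! ### programs -/

variable {g : Gl}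

theorem sp_segR {B : List ℕ} {s : St} (E : InvE F V K B s) (hW : F.WF V D)
    (hG : ∀ x ∈ V, 2 * (F.G.get x).natAbs ≤ g.X) (u : ℕ) :
    Sp g (segR F s u) fun r t => r = seg F s u ∧ t ≤ 3 * K + 3 := by
  unfold segR seg
  simp only [List.isEmpty_eq_false_iff]
  split_ifs with h
  · refine (sp_filterMapP _ _).bind ?_
    rintro _ t1 ⟨rfl, h1⟩
    refine (sp_revL _).bind ?_
    rintro _ t2 ⟨rfl, h2⟩
    have k := E.pa u h.1
    have k1 := hG u k.1
    have k2 := hG _ (k.2.mem hW k.1).1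
    have k3 := E.len u
    have k4 := List.length_filterMap_le F.pe.get (s.pth.get u)
    rw [sp_bind, sp_int]
    exact ⟨by omega, rfl, by omega⟩
  · exact ⟨rfl, by omega⟩

theorem foldl_spn (p : ℕ → Bool) (l A B : List ℕ) :
    l.foldl (fun (t : List ℕ × List ℕ) a =>
      if t.2.isEmpty = true ∧ p a = true then (a :: t.1, t.2) else (t.1, a :: t.2)) (A, B) =
    if B = [] then ((l.takeWhile p).reverse ++ A, (l.dropWhile p).reverse)
    else (A, l.reverse ++ B) := by
  induction l generalizing A B with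
  | nil => split_ifs with h <;> simp [h]
  | cons a l ih =>
    rw [List.foldl_cons]
    simp only [List.isEmpty_iff] at ih ⊢
    by_cases h : B = []
    · subst h
      by_cases k : p a = true <;> simp [ih, k]
    · simp [ih, h]

theorem sp_spn (p : ℕ → Bool) (l : List ℕ) : Sp g (spn p l) fun r t =>
    r = (l.takeWhile p, l.dropWhile p) ∧ t = 2 * l.length + 3 := by
  refine (sp_foldP _ l _).bind ?_
  rintro _ _ ⟨rfl, rfl⟩
  refine (sp_revL _).bind ?_
  rintro _ _ ⟨rfl, rfl⟩
  refine (sp_revL _).bind ?_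
  rintro _ _ ⟨rfl, rfl⟩
  have := congrArg List.length (List.takeWhile_append_dropWhile (p := p) (l := l))
  rw [List.length_append] at this
  simp only [foldl_spn, if_true, sp_pure, List.append_nil, List.reverse_reverse,
    List.length_reverse, true_and]
  omega

theorem sp_setE {B : List ℕ} {s : St} {o : List ℕ} (E : InvE F V K B s) (hu : u ∈ V)
    (hP : P ≠ [] → F.Pa u P y) (hK : P.length ≤ K)
    (hz : ∀ z ∈ P, s.cut.get z = false ∧ (s.cov.get z = 0 ∨ z ∈ s.pth.get u)) :
    Sp g (setE u P y (s, o)) fun so t => so.2 = u :: o ∧ Off V s so.1 [u] ∧ InvE F V K B so.1 ∧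
      so.1 = { s with pth := s.pth.set u P, up := s.up.set u y, cov := so.1.cov } ∧
      (∀ x, so.1.cov.get x =
        if x ∈ P then u + 1 else if x ∈ s.pth.get u then 0 else s.cov.get x) ∧
      t ≤ 2 * K + 2 := by
  unfold setE
  refine (sp_setAllP _ _ _).bind fun c1 t2 h2 => (sp_setAllP _ _ _).bind fun c2 t3 h3 => ?_
  have hc : ∀ x, c2.get x =
      if x ∈ P then u + 1 else if x ∈ s.pth.get u then 0 else s.cov.get x := fun x => by
    rw [h3.1, h2.1]
  have hl := E.len u
  dsimp only at h2 h3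
  have hE : InvE F V K B
      { s with pth := s.pth.set u P, up := s.up.set u y, cov := c2 } := by
    refine ⟨fun v hv => ?_, fun v => ?_, fun x v => ?_, fun x h k => ?_⟩
    · by_cases e : v = u
      · subst e; simp only [Arr.get_set_self] at hv ⊢; exact ⟨hu, hP hv⟩
      · simp only [Arr.get_set_ne _ e] at hv ⊢; exact E.pa v hv
    · simp only [Arr.get_set]; split_ifs; exacts [hK, E.len v]
    · simp only [hc, Arr.get_set]
      have a1 := E.cov x v
      have a2 := E.cov x u
      by_cases e : v = u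
      · subst e
        rw [if_pos rfl]
        split_ifs with b1 b2
        · simp [b1]
        · simp [b1]
        · simp [b1, a1, b2]
      · rw [if_neg e]
        split_ifs with b1 b2
        · refine ⟨fun k => (e (by omega)).elim, fun k => ?_⟩
          rcases (hz x b1).2 with j | j
          · have := a1.2 k; omega
          · have := a1.2 k; have := a2.2 j; omega
        · refine ⟨fun k => ?_, fun k => ?_⟩
          · simp at k
          · have := a1.2 k; have := a2.2 b2; omega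
        · exact a1
    · simp only [hc] at k h
      split_ifs at k with b1 b2
      · rw [(hz x b1).1] at h; cases h
      · exact absurd rfl k
      · exact E.nc x h k
  refine ⟨rfl, ⟨by simpa using hu, fun v hv => ?_⟩, hE, rfl, hc, by omega⟩
  have e : v ≠ u := by simpa using hv
  simp only [Arr.get_set_ne _ e, and_self]

end Crest.Agent.N325.Pc
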