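import Crest.Agent.N325.Lt.Defs
import Crest.Agent.N325.Lst.ListR

/-!
# Row 325 (helper42): pieces of a rooted forest, marks and compressed root paths — definitions

The node `u` owns at most one compressed edge, which covers the nodes `pth u` on the way from `u`
up to `up u`.  Hard marks cut the forest, soft marks create compressed edges.
-/

set_option autoImplicit false
open Finset

namespace Crest.Agent.N325.Pc

open Tw

/-- the static forest (only `par pe H G nm cl` are used; `par x = x` at the top) -/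
abbrev Fo : Type := Lt.LF

/-- `P` lists the nodes of the way from `x` up to `y` (without `y`) -/
def Fo.Pa (F : Fo) : ℕ → List ℕ → ℕ → Prop
  | x, [], y => x = y
  | x, z :: P, y => z = x ∧ F.par.get x ≠ x ∧ Fo.Pa F (F.par.get x) P y

/-- `y` is an ancestor of `x` (or `x`) -/
def Fo.Anc (F : Fo) (x y : ℕ) : Prop := ∃ P, F.Pa x P y

/-- static well-formedness on the node set `V`, closure lists of length at most `D` -/
structure Fo.WF (F : Fo) (V : Finset ℕ) (D : ℕ) : Prop where
  par : ∀ x ∈ V, F.par.get x ∈ V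
  rk : ∃ dp : ℕ → ℕ, ∀ x ∈ V, F.par.get x ≠ x → dp (F.par.get x) < dp x
  lp : ∀ x ∈ V, F.H.get (F.par.get x) ≤ F.H.get x
  zero : ∀ x ∈ V, F.H.get (F.par.get x) = F.H.get x →
    F.nm.get (F.par.get x) = F.nm.get x ∧ F.G.get (F.par.get x) = F.G.get x
  cl : ∀ x ∈ V, (F.cl.get x).length ≤ D ∧
    ∀ y ∈ F.cl.get x, y ∈ V ∧ ∀ z ∈ F.cl.get y, z ∈ F.cl.get x

/-- the labels of the edges that are not cut are walks of `G` -/
def Fo.Lab (F : Fo) (V : Finset ℕ) (G : Gr) (π : ℕ → ℕ) (cut : ℕ → Bool) : Prop :=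
  ∀ x ∈ V, cut x = false → (∀ y ∈ F.pe.get x, y.1 ∈ G.E) ∧
    Tel G.ed (F.pe.get x).toList (π (F.par.get x)) (π x) ∧
    F.H.get (F.par.get x) + wl G.ed (F.pe.get x).toList ≤ F.H.get x ∧
    F.G.get x = F.G.get (F.par.get x) + wg G.ed (F.pe.get x).toList

/-- the state: hard marks, compressed edges, owner (`+ 1`) of the edge above a node, root of the
piece, piece at the time of the construction and its members (top down) -/
structure St where
  cut : Arr Bool
  pth : Arr (List ℕ)
  up : Arr ℕ
  cov : Arr ℕ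
  rt : Arr ℕ
  bp : Arr ℕ
  mem : Arr (List ℕ)

/-- `x` is a vertex of the compressed forest -/
def St.Vt (s : St) (x : ℕ) : Prop := s.cut.get x = true ∨ s.pth.get x ≠ []

/-- the edge from `y` down to `u` -/
def Fo.ed (F : Fo) (u y : ℕ) : Ed :=
  ⟨F.nm.get y, F.nm.get u, F.H.get u - F.H.get y, F.G.get u - F.G.get y⟩

/-- the walk down the way `P` -/
def Fo.wk (F : Fo) (P : List ℕ) : Wk := (P.filterMap F.pe.get).reverse

/-- **the table of the compressed edges** (edges of height `0` are skipped) -/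
def seg (F : Fo) (s : St) (u : ℕ) : Option (Ed × Wk) :=
  if s.pth.get u ≠ [] ∧ F.H.get (s.up.get u) < F.H.get u then
    some (F.ed u (s.up.get u), F.wk (s.pth.get u))
  else none

/-- the part of the invariant about the pieces; `wt ≥ 1` are the weights of the nodes -/
structure InvP (F : Fo) (V : Finset ℕ) (wt : ℕ → ℕ) (K : ℕ) (s : St) : Prop where
  top : ∀ x ∈ V, F.par.get x = x → s.cut.get x = true
  one : ∀ x ∈ V, 1 ≤ wt x
  mem : ∀ r y, y ∈ s.mem.get r ↔ y ∈ V ∧ s.bp.get y = r
  nd : ∀ r, (s.mem.get r).Nodup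
  td : ∀ r l y m, s.mem.get r = l ++ y :: m → s.cut.get y = false → F.par.get y ∈ l
  sz : ∀ r, ((s.mem.get r).map wt).sum ≤ K
  rt : ∀ x ∈ V, s.rt.get x = if s.cut.get x = true then x else s.rt.get (F.par.get x)

/-- the part about the compressed edges; the marked nodes in `B` may still be covered -/
structure InvE (F : Fo) (V : Finset ℕ) (K : ℕ) (B : List ℕ) (s : St) : Prop where
  pa : ∀ u, s.pth.get u ≠ [] → u ∈ V ∧ F.Pa u (s.pth.get u) (s.up.get u)
  len : ∀ u, (s.pth.get u).length ≤ K
  cov : ∀ x u, s.cov.get x = u + 1 ↔ x ∈ s.pth.get u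
  nc : ∀ x, s.cut.get x = true → s.cov.get x ≠ 0 → x ∈ B

/-- every compressed edge ends in a vertex -/
def St.End (s : St) : Prop := ∀ u, s.pth.get u ≠ [] → s.Vt (s.up.get u)

/-- **the invariant**; `M` = the marked nodes -/
structure Inv (F : Fo) (V : Finset ℕ) (wt : ℕ → ℕ) (K : ℕ) (M : Finset ℕ) (s : St) : Prop where
  p : InvP F V wt K s
  e : InvE F V K [] s
  fin : s.End
  sub : M ⊆ V
  mrk : ∀ x ∈ V, s.cut.get x = true ↔ x ∈ M ∨ F.par.get x = x
  cl : ∀ x ∈ M, ∀ y ∈ F.cl.get x, y ∈ M

/-- only the edges of the nodes in `n` (nodes of `V`) differ -/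
structure Off (V : Finset ℕ) (s s' : St) (n : List ℕ) : Prop where
  ids : ∀ u ∈ n, u ∈ V
  eq : ∀ u, u ∉ n → s'.pth.get u = s.pth.get u ∧ s'.up.get u = s.up.get u

/-! ## programs -/

/-- state and list of the dirty nodes -/
abbrev So : Type := St × List ℕ

/-- an entry of the table -/
def segR (F : Fo) (s : St) (u : ℕ) : R (Option (Ed × Wk)) :=
  if (s.pth.get u).isEmpty = false ∧ F.H.get (s.up.get u) < F.H.get u then
    filterMapP F.pe.get (s.pth.get u) >>= fun w => revL w >>= fun w' =>
    int (F.G.get u - F.G.get (s.up.get u)) >>= fun γ =>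
    pure (some (⟨F.nm.get (s.up.get u), F.nm.get u, F.H.get u - F.H.get (s.up.get u), γ⟩, w'))
  else pure none

/-- `(l.takeWhile p, l.dropWhile p)` -/
def spn (p : ℕ → Bool) (l : List ℕ) : R (List ℕ × List ℕ) :=
  foldP (fun a (t : List ℕ × List ℕ) =>
    if t.2.isEmpty = true ∧ p a = true then (a :: t.1, t.2) else (t.1, a :: t.2)) l ([], []) >>=
  fun t => revL t.1 >>= fun A => revL t.2 >>= fun B => pure (A, B)

/-- replace the edge of `u` by the way `P` up to `y` -/
def setE (u : ℕ) (P : List ℕ) (y : ℕ) (so : So) : R So :=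
  setAllP (fun _ => 0) (so.1.pth.get u) so.1.cov >>= fun c1 =>
  setAllP (fun _ => u + 1) P c1 >>= fun c2 =>
  pure ({ so.1 with pth := so.1.pth.set u P, up := so.1.up.set u y, cov := c2 }, u :: so.2)

/-- make the marked or covered node `y` a vertex -/
def mkV (y : ℕ) (so : So) : R So :=
  if so.1.cut.get y = true ∨ so.1.cov.get y = y + 1 then pure so
  else
    spn (fun z => decide (z ≠ y)) (so.1.pth.get (so.1.cov.get y - 1)) >>= fun t =>
    setE (so.1.cov.get y - 1) t.1 y so >>= fun so1 =>
    setE y t.2 (so.1.up.get (so.1.cov.get y - 1)) so1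

/-- climb to the first marked or covered node: that node and the reversed way -/
def climb (F : Fo) (fu x : ℕ) (s : St) : R (ℕ × List ℕ) :=
  whileF (fun t : ℕ × List ℕ => !s.cut.get t.1 && decide (s.cov.get t.1 = 0))
    (fun t => pure (F.par.get t.1, t.1 :: t.2)) fu (x, [])

/-- **soft mark** (`fu > K`) -/
def soft (F : Fo) (fu x : ℕ) (so : So) : R So :=
  climb F fu x so.1 >>= fun t =>
  mkV t.1 so >>= fun so1 =>
  if t.2.isEmpty = true then pure so1 else revL t.2 >>= fun P => setE x P t.1 so1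

/-- recompute the roots along a top-down list -/
def reRt (F : Fo) (cut : Arr Bool) (l : List ℕ) (rt : Arr ℕ) : R (Arr ℕ) :=
  foldP (fun y (a : Arr ℕ) => a.set y (if cut.get y = true then y else a.get (F.par.get y))) l rt

/-- shorten the edge that covers the marked node `x` -/
def fixE (x : ℕ) (so : So) : R So :=
  if so.1.cov.get x = 0 then pure so
  else
    spn (fun z => !so.1.cut.get z) (so.1.pth.get (so.1.cov.get x - 1)) >>= fun t =>
    setE (so.1.cov.get x - 1) t.1 (t.2.headD 0) so

/-- hard marks at the nodes `X`; also returns the old roots of their pieces -/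
def hardX (F : Fo) (X : List ℕ) (so : So) : R (So × List ℕ) :=
  setAllP (fun _ => true) X so.1.cut >>= fun cut =>
  mapP so.1.rt.get X >>= fun T =>
  foldL (fun x rt => reRt F cut (so.1.mem.get (so.1.bp.get x)) rt) X so.1.rt >>= fun rt =>
  foldL fixE X ({ so.1 with cut := cut, rt := rt }, so.2) >>= fun so' =>
  pure (so', T)

/-- **hard marks** at the nodes `xs` and their closure lists; also returns the marked nodes and
the old roots of their pieces -/
def hard (F : Fo) (xs : List ℕ) (so : So) : R (So × List ℕ × List ℕ) :=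
  flatMapP F.cl.get xs >>= fun Y => appL xs Y >>= fun X =>
  hardX F X so >>= fun r => pure (r.1, X, r.2)

/-- one step of the greedy marking: residual weights, marks, list of the marks -/
def preS (F : Fo) (wt : Arr ℕ) (K0 x : ℕ) (t : Arr ℕ × Arr Bool × List ℕ) :
    R (Arr ℕ × Arr Bool × List ℕ) :=
  nat (t.1.get x + wt.get x) >>= fun a =>
  if F.par.get x = x then pure (t.1, t.2.1.set x true, t.2.2)
  else if K0 ≤ a then pure (t.1, t.2.1.set x true, x :: t.2.2)
  else nat (t.1.get (F.par.get x) + a) >>= fun b => pure (t.1.set (F.par.get x) b, t.2.1, t.2.2)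

/-- **construction** from the bottom-up list `ord` of the nodes; returns the marked nodes -/
def build (F : Fo) (wt : Arr ℕ) (K0 : ℕ) (ord : List ℕ) : R (St × List ℕ) :=
  foldL (preS F wt K0) ord (Arr.cst 0, Arr.cst false, []) >>= fun t =>
  revL ord >>= fun td =>
  reRt F t.2.1 td (Arr.cst 0) >>= fun bp =>
  bucketP bp.get ord (Arr.cst []) >>= fun mem =>
  hard F t.2.2 (⟨t.2.1, Arr.cst [], Arr.cst 0, Arr.cst 0, bp, bp, mem⟩, []) >>= fun r =>
  pure (r.1.1, r.2.1)

/-- `ord` lists the nodes, children first -/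
structure Ord (F : Fo) (V : Finset ℕ) (ord : List ℕ) : Prop where
  nd : ord.Nodup
  mem : ∀ x, x ∈ ord ↔ x ∈ V
  up : ∀ l x m, ord = l ++ x :: m → F.par.get x ≠ x → F.par.get x ∈ m

end Crest.Agent.N325.Pc
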