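import Crest.Agent.N325.Pc.Pre
import Crest.Agent.N325.Pc.Defs

/-!
# Row 325 (helper75): the weighted greedy marking of `build`
-/

set_option autoImplicit false

namespace Crest.Agent.N325.Pc

/-- weight of the entries with `p` -/
def wsm (wt : ℕ → ℕ) (D : List ℕ) (p : ℕ → Prop) [DecidablePred p] : ℕ :=
  (D.map fun y => if p y then wt y else 0).sum

section wsm
variable {wt : ℕ → ℕ} {D : List ℕ} {p q r : ℕ → Prop} [DecidablePred p] [DecidablePred q]
  [DecidablePred r]

theorem wsm_cons (a : ℕ) : wsm wt (a :: D) p = (if p a then wt a else 0) + wsm wt D p := by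
  simp [wsm]

theorem wsm_le (h : ∀ y ∈ D, p y → q y) : wsm wt D p ≤ wsm wt D q :=
  List.sum_le_sum fun y hy => by
    by_cases e : p y
    · rw [if_pos e, if_pos (h y hy e)]
    · rw [if_neg e]; exact Nat.zero_le _

theorem wsm_congr (h : ∀ y ∈ D, p y ↔ q y) : wsm wt D p = wsm wt D q :=
  (wsm_le fun y hy => (h y hy).1).antisymm (wsm_le fun y hy => (h y hy).2)

theorem wsm_zero (h : ∀ y ∈ D, ¬p y) : wsm wt D p = 0 :=
  List.sum_eq_zero fun z hz => by
    obtain ⟨y, hy, rfl⟩ := List.mem_map.1 hz
    exact if_neg (h y hy)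

theorem wsm_split (h : ∀ y ∈ D, (p y ↔ q y ∨ r y) ∧ ¬(q y ∧ r y)) :
    wsm wt D p = wsm wt D q + wsm wt D r := by
  induction D with
  | nil => rfl
  | cons a D ih =>
    have k := h a List.mem_cons_self
    rw [wsm_cons, wsm_cons, wsm_cons, ih fun y hy => h y (List.mem_cons_of_mem _ hy)]
    by_cases e1 : q a <;> by_cases e2 : r a <;> simp_all <;> omega

theorem wsm_le_sum : wsm wt D p ≤ (D.map wt).sum :=
  List.sum_le_sum fun y _ => by split_ifs <;> omega

theorem wsm_reverse : wsm wt D.reverse p = wsm wt D p := by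
  simp only [wsm, List.map_reverse, List.sum_reverse]

theorem wsm_filter : wsm wt D p = ((D.filter fun y => p y).map wt).sum := by
  induction D with
  | nil => rfl
  | cons a D ih =>
    rw [wsm_cons, ih, List.filter_cons]
    by_cases e : p a <;> simp [e]

end wsm

/-- the invariant: `D` = nodes done, `top` = current representative -/
structure PreW (K W c : ℕ) (par wt : ℕ → ℕ) (D : List ℕ) (w : ℕ → ℕ) (cut : ℕ → Bool)
    (M : List ℕ) (top : ℕ → ℕ) : Prop where
  nd : M.Nodup
  sub : ∀ x ∈ M, x ∈ D ∧ par x ≠ x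
  cut : ∀ x, cut x = true ↔ x ∈ D ∧ (x ∈ M ∨ par x = x)
  eq : RtEq par (· ∈ M) D top
  out : ∀ z ∉ D, top z = z
  cnt : ∀ z ∉ D, w z = wsm wt D (top · = z)
  le : ∀ z ∉ D, w z ≤ K * D.countP fun y => par y = z ∧ y ≠ z
  big : ∀ r ∈ D, wsm wt D (top · = r) ≤ W + K * c
  num : K * M.length + wsm wt D (top · ∉ D) ≤ (D.map wt).sum

variable {K W c : ℕ} {par wt : ℕ → ℕ} {D : List ℕ} {w : ℕ → ℕ} {cut : ℕ → Bool} {M : List ℕ}
  {top : ℕ → ℕ} {x : ℕ}

/-- the node `x` closes its piece -/
theorem PreW.close (I : PreW K W c par wt D w cut M top) (hx : x ∉ D) (hW : wt x ≤ W)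
    (hc : D.countP (fun y => par y = x ∧ y ≠ x) ≤ c) {M' : List ℕ}
    (hM : (par x = x ∧ M' = M) ∨ (par x ≠ x ∧ K ≤ w x + wt x ∧ M' = x :: M)) :
    PreW K W c par wt (x :: D) w (Function.update cut x true) M' top := by
  have tx := I.out x hx
  have hm : ∀ y, y ≠ x → (y ∈ M' ↔ y ∈ M) := fun y hy => by
    rcases hM with ⟨-, rfl⟩ | ⟨-, -, rfl⟩ <;> simp [hy]
  have hx' : x ∈ M' ∨ par x = x := by
    rcases hM with ⟨k, -⟩ | ⟨-, -, rfl⟩
    exacts [.inr k, .inl (.head _)]
  have sp : wsm wt D (top · ∉ D) = wsm wt D (top · ∉ x :: D) + wsm wt D (top · = x) :=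
    wsm_split fun y _ => by
      by_cases e : top y = x
      · simp [e, hx]
      · simp [e]
  refine ⟨?_, fun y hy => ?_, fun y => ?_, fun y hy => ?_,
    fun z hz => I.out z fun k => hz (.tail _ k), fun z hz => ?_, fun z hz => ?_, fun r hr => ?_, ?_⟩
  · rcases hM with ⟨-, rfl⟩ | ⟨-, -, rfl⟩
    exacts [I.nd, List.nodup_cons.2 ⟨fun k => hx (I.sub x k).1, I.nd⟩]
  · rcases hM with ⟨-, rfl⟩ | ⟨k, -, rfl⟩
    · exact ⟨.tail _ (I.sub y hy).1, (I.sub y hy).2⟩
    · rcases List.mem_cons.1 hy with rfl | hy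
      exacts [⟨.head _, k⟩, ⟨.tail _ (I.sub y hy).1, (I.sub y hy).2⟩]
  · by_cases e : y = x
    · subst e; simp [hx']
    · rw [Function.update_of_ne e, I.cut y, hm y e]; simp [e]
  · rcases List.mem_cons.1 hy with rfl | hy
    · exact ⟨fun _ => tx, fun k => absurd hx' k⟩
    · simp only [hm y fun e => hx (e ▸ hy)]
      exact I.eq y hy
  · have : x ≠ z := fun e => hz (e ▸ .head _)
    rw [wsm_cons, I.cnt z fun k => hz (.tail _ k)]
    simp [tx, this]
  · refine (I.le z fun k => hz (.tail _ k)).trans (Nat.mul_le_mul_left _ ?_)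
    rw [List.countP_cons]; omega
  · rw [wsm_cons]
    by_cases e : r = x
    · subst e
      have := I.cnt r hx
      have := (I.le r hx).trans (Nat.mul_le_mul_left _ hc)
      split_ifs <;> omega
    · have := I.big r ((List.mem_cons.1 hr).resolve_left e)
      have e' : ¬x = r := fun k => e k.symm
      simpa [tx, e'] using this
  · have := I.num
    have := I.cnt x hx
    rw [wsm_cons, List.map_cons, List.sum_cons, if_neg (by simp [tx])]
    rcases hM with ⟨-, rfl⟩ | ⟨-, k, rfl⟩
    · omega
    · rw [List.length_cons, mul_add]; omega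

/-- the node `x` hands its weight to its parent -/
theorem PreW.push (I : PreW K W c par wt D w cut M top) (hx : x ∉ D) (hp : par x ∉ D)
    (hr : par x ≠ x) (hK : w x + wt x < K) :
    PreW K W c par wt (x :: D) (Function.update w (par x) (w (par x) + (w x + wt x))) cut M
      fun y => if top y = x then par x else top y := by
  have tx := I.out x hx
  have tp := I.out _ hp
  have nm : x ∉ M := fun k => hx (I.sub x k).1
  refine ⟨I.nd, fun y hy => ⟨.tail _ (I.sub y hy).1, (I.sub y hy).2⟩, fun y => ?_, fun y hy => ?_,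
    fun z hz => ?_, fun z hz => ?_, fun z hz => ?_, fun r hr' => ?_, ?_⟩
  · rw [I.cut y]
    by_cases e : y = x
    · subst e; simp [hx, nm, hr]
    · simp [e]
  · rcases List.mem_cons.1 hy with rfl | hy
    · exact ⟨fun k => absurd k (by simp [nm, hr]), fun _ => by simp [tx, tp]⟩
    · refine ⟨fun k => ?_, fun k => by simp only [(I.eq y hy).2 k]⟩
      have : y ≠ x := fun e => hx (e ▸ hy)
      simp [(I.eq y hy).1 k, this]
  · have : z ≠ x := fun e => hz (e ▸ .head _)
    simp [I.out z fun k => hz (.tail _ k), this]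
  · have zx : z ≠ x := fun e => hz (e ▸ .head _)
    have zD : z ∉ D := fun k => hz (.tail _ k)
    rw [wsm_cons]
    by_cases e : z = par x
    · subst e
      rw [Function.update_self, I.cnt _ hp, I.cnt x hx, wsm_split (D := D)
        (p := fun y => (if top y = x then par x else top y) = par x) (q := (top · = par x))
        (r := (top · = x)) fun y _ => by
          by_cases k : top y = x
          · simp [k, hr.symm]
          · simp [k]]
      simp [tx]; omega
    · rw [Function.update_of_ne e, I.cnt z zD]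
      have e' : ¬par x = z := fun k => e k.symm
      simp only [tx, if_true, e', if_false, zero_add]
      refine wsm_congr fun y _ => ?_
      by_cases k : top y = x
      · simp [k, e', zx.symm]
      · simp [k]
  · have zD : z ∉ D := fun k => hz (.tail _ k)
    have := I.le z zD
    rw [List.countP_cons]
    by_cases e : z = par x
    · subst e
      rw [Function.update_self, if_pos (by simp [hr.symm]), mul_add]; omega
    · rw [Function.update_of_ne e]
      exact this.trans (Nat.mul_le_mul_left _ (Nat.le_add_right _ _))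
  · have e : ¬par x = r := fun k => by
      rcases List.mem_cons.1 hr' with rfl | h
      exacts [hr k, hp (k ▸ h)]
    rw [wsm_cons]
    simp only [tx, if_true, e, if_false, zero_add]
    rcases List.mem_cons.1 hr' with rfl | h
    · rw [wsm_zero fun y _ => by by_cases k : top y = r <;> simp [k, e]]
      exact Nat.zero_le _
    · refine le_trans (wsm_le fun y _ => ?_) (I.big r h)
      by_cases k : top y = x
      · simp [k, e]
      · simp [k]
  · have := I.num
    have : wsm wt D (fun y => (if top y = x then par x else top y) ∉ x :: D) ≤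
        wsm wt D (top · ∉ D) := wsm_le fun y _ => by
      by_cases k : top y = x
      · simp [k, hx]
      · simp [k]
    rw [wsm_cons, List.map_cons, List.sum_cons]
    split_ifs <;> omega

/-- what the marks achieve -/
structure PreOut (K W c : ℕ) (par wt : ℕ → ℕ) (l : List ℕ) (cut : ℕ → Bool) (M : List ℕ) :
    Prop where
  nd : M.Nodup
  sub : ∀ x ∈ M, x ∈ l ∧ par x ≠ x
  cut : ∀ x, cut x = true ↔ x ∈ l ∧ (x ∈ M ∨ par x = x)
  num : K * M.length ≤ (l.map wt).sum
  big : ∀ rt, RtEq par (· ∈ M) l rt → ∀ r, wsm wt l (rt · = r) ≤ W + K * c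

theorem sp_preS {g : Gl} {F : Fo} {wt : Arr ℕ} {l : List ℕ} (h : CF F.par.get l)
    (hW : ∀ x ∈ l, wt.get x ≤ W)
    (hc : ∀ x ∈ l, l.countP (fun y => F.par.get y = x ∧ y ≠ x) ≤ c)
    (hX : (l.map wt.get).sum ≤ g.X) :
    Sp g (foldL (preS F wt K) l (Arr.cst 0, Arr.cst false, [])) fun r t =>
      PreOut K W c F.par.get wt.get l r.2.1.get r.2.2 ∧ t ≤ l.length + 1 := by
  have key := sp_foldL' (g := g) (f := preS F wt K)
    (fun l' s => ∃ D top, D.reverse ++ l' = l ∧
      PreW K W c F.par.get wt.get D s.1.get s.2.1.get s.2.2 top) (fun _ => 0)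
    (fun x l' s ⟨D, top, e, I⟩ => ?_) (l := l) (s := (Arr.cst 0, Arr.cst false, []))
    ⟨[], id, rfl, ⟨List.nodup_nil, by simp, by simp, by simp [RtEq], by simp, by simp [wsm],
      by simp, by simp, by simp [wsm]⟩⟩
  · refine key.mono fun s t ⟨⟨D, top, e, I⟩, k⟩ => ?_
    rw [List.append_nil] at e
    have hm : ∀ y, y ∈ D ↔ y ∈ l := fun y => by rw [← e, List.mem_reverse]
    have hl : (D.map wt.get).sum = (l.map wt.get).sum := by
      rw [← e, List.map_reverse, List.sum_reverse]
    refine ⟨⟨I.nd, fun x hx => ⟨(hm x).1 (I.sub x hx).1, (I.sub x hx).2⟩,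
      fun x => by rw [I.cut x, hm x], by have := I.num; omega, fun rt hrt r => ?_⟩, by simpa using k⟩
    have u := RtEq.unique h hrt (r' := top) fun x hx => I.eq x ((hm x).2 hx)
    have c1 : wsm wt.get l (rt · = r) = wsm wt.get D (top · = r) := by
      rw [wsm_congr (q := (top · = r)) fun y hy => by simp [u y hy], ← e, wsm_reverse]
    rw [c1]
    by_cases hr : r ∈ D
    · exact I.big r hr
    · have hin : ∀ y ∈ l, top y ∈ l := h.ind fun y hy ih => by
        by_cases k : y ∈ s.2.2 ∨ F.par.get y = y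
        · rw [(I.eq y ((hm y).2 hy)).1 k]; exact hy
        · rw [(I.eq y ((hm y).2 hy)).2 k]; exact ih fun k' => k (.inr k')
      rw [wsm_zero fun y hy k => hr ((hm r).2 (by rw [← k]; exact hin y ((hm y).1 hy)))]
      exact Nat.zero_le _
  · have nd := h.nodup
    have cf : CF F.par.get (x :: l') := cf_append (e ▸ h)
    rw [← e, List.nodup_append] at nd
    have xD : x ∉ D := fun k => nd.2.2 x (List.mem_reverse.2 k) x (.head _) rfl
    have e' : (x :: D).reverse ++ l' = l := by rw [← e]; simp
    have xl : x ∈ l := by rw [← e]; simp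
    have hc' : D.countP (fun y => F.par.get y = x ∧ y ≠ x) ≤ c := by
      refine le_trans ?_ (hc x xl)
      rw [← e, List.countP_append, List.countP_reverse]; omega
    have hs : ((x :: D).map wt.get).sum ≤ g.X := by
      refine le_trans ?_ hX
      rw [← e', List.map_append, List.sum_append, List.map_reverse, List.sum_reverse]; omega
    have h0 : s.1.get x ≤ (D.map wt.get).sum := by rw [I.cnt x xD]; exact wsm_le_sum
    unfold preS
    refine sp_bind.2 (sp_nat.2 ⟨by rw [List.map_cons, List.sum_cons] at hs; omega, ?_⟩)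
    split_ifs with h1 h2
    · exact ⟨⟨_, top, e', by
        rw [Arr.set_get]; exact I.close xD (hW x xl) hc' (.inl ⟨h1, rfl⟩)⟩, le_rfl⟩
    · exact ⟨⟨_, top, e', by
        rw [Arr.set_get]; exact I.close xD (hW x xl) hc' (.inr ⟨h1, h2, rfl⟩)⟩, le_rfl⟩
    · have pD : F.par.get x ∉ D := fun k =>
        nd.2.2 _ (List.mem_reverse.2 k) _ (.tail _ (cf.2.1.resolve_left h1)) rfl
      have J := I.push xD pD h1 (by omega)
      refine sp_bind.2 (sp_nat.2 ⟨?_, ⟨_, _, e', by rw [Arr.set_get]; exact J⟩, le_rfl⟩)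
      have := J.cnt (F.par.get x) (by simp [h1, pD])
      rw [Function.update_self] at this
      rw [this]
      exact wsm_le_sum.trans hs

end Crest.Agent.N325.Pc
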