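import Crest.Agent.N325.Pc.Bld0

/-!
# Row 325 (helper75): the state of `build` before the hard marks
-/

set_option autoImplicit false
open Finset

namespace Crest.Agent.N325.Pc

theorem Ord.cf {F : Fo} {V : Finset ℕ} {ord : List ℕ} (h : Ord F V ord) : CF F.par.get ord := by
  have : ∀ l, l.Nodup → (∀ p x m, l = p ++ x :: m → F.par.get x ≠ x → F.par.get x ∈ m) →
      CF F.par.get l := fun l => by
    induction l with
    | nil => exact fun _ _ => trivial
    | cons a l ih =>
      exact fun n u => ⟨(List.nodup_cons.1 n).1, or_iff_not_imp_left.2 (u [] a l rfl),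
        ih (List.nodup_cons.1 n).2 fun p x m e => u (a :: p) x m (by rw [e]; rfl)⟩
  exact this ord h.nd h.up

theorem CF.up {par : ℕ → ℕ} {l : List ℕ} (h : CF par l) {p m : List ℕ} {x : ℕ}
    (e : l = p ++ x :: m) (k : par x ≠ x) : par x ∈ m :=
  (cf_append (e ▸ h : CF par (p ++ x :: m))).2.1.resolve_left k

/-- the list of `Lt.LF.Ok` is an `Ord` -/
theorem ord_of_pl {F : Fo} {ord : List ℕ} (hn : ord.Nodup) (h : Lt.PL F.par.get ord) :
    Ord F ord.toFinset ord :=
  ⟨hn, fun _ => List.mem_toFinset.symm, fun _ _ _ e k => (cf_of_pl hn h).up e k⟩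

theorem Ord.eq {F : Fo} {V : Finset ℕ} {ord : List ℕ} (h : Ord F V ord) : V = ord.toFinset :=
  Finset.ext fun x => by rw [List.mem_toFinset, h.mem]

theorem Ord.sum {F : Fo} {V : Finset ℕ} {ord : List ℕ} (h : Ord F V ord) (f : ℕ → ℕ) :
    (ord.map f).sum = ∑ x ∈ V, f x := by rw [h.eq, List.sum_toFinset f h.nd]

theorem Ord.card {F : Fo} {V : Finset ℕ} {ord : List ℕ} (h : Ord F V ord) :
    ord.length = V.card := by rw [h.eq, List.toFinset_card_of_nodup h.nd]

theorem Ord.countP {F : Fo} {V : Finset ℕ} {ord : List ℕ} (h : Ord F V ord) (p : ℕ → Prop)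
    [DecidablePred p] : ord.countP (fun y => p y) = (V.filter p).card := by
  rw [List.countP_eq_length_filter, ← List.toFinset_card_of_nodup (h.nd.filter _),
    List.toFinset_filter, h.eq]
  simp

theorem foldl_rt {par : ℕ → ℕ} {cut : ℕ → Bool} {l : List ℕ} (h : CF par l)
    (ht : ∀ x ∈ l, par x = x → cut x = true) (a : Arr ℕ) : ∀ x ∈ l,
      (l.reverse.foldl (fun (a : Arr ℕ) y => a.set y (if cut y = true then y else a.get (par y)))
        a).get x = if cut x = true then x else
      (l.reverse.foldl (fun (a : Arr ℕ) y => a.set y (if cut y = true then y else a.get (par y)))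
        a).get (par x) := by
  induction l with
  | nil => intro x hx; cases hx
  | cons z l ih =>
    have ih := ih h.2.2 fun x hx => ht x (.tail _ hx)
    intro x hx
    rw [List.reverse_cons, List.foldl_append, List.foldl_cons, List.foldl_nil]
    by_cases c : cut x = true
    · rw [if_pos c]
      rcases List.mem_cons.1 hx with rfl | hx
      · rw [Arr.get_set_self, if_pos c]
      · rw [Arr.get_set_ne _ (ne_of_mem_of_not_mem hx h.1), ih x hx, if_pos c]
    · rw [if_neg c]
      have n : par x ≠ x := fun e => c (ht x hx e)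
      rcases List.mem_cons.1 hx with rfl | hx
      · rw [Arr.get_set_self, if_neg c, Arr.get_set_ne _ n]
      · rw [Arr.get_set_ne _ (ne_of_mem_of_not_mem hx h.1), ih x hx, if_neg c,
          Arr.get_set_ne _ (ne_of_mem_of_not_mem (h.2.2.par_mem hx) h.1)]

theorem CF.filter_up {par : ℕ → ℕ} {l : List ℕ} (h : CF par l) {p : ℕ → Bool} {A B : List ℕ}
    {y : ℕ} (e : l.filter p = A ++ y :: B) (n : par y ≠ y) (k : p (par y) = true) : par y ∈ B := by
  induction l generalizing A with
  | nil => simp at e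
  | cons z l ih =>
    rw [List.filter_cons] at e
    split_ifs at e with c
    · cases A with
      | nil =>
        obtain ⟨rfl, rfl⟩ := List.cons.inj e
        exact List.mem_filter.2 ⟨h.2.1.resolve_left n, k⟩
      | cons a A => exact ih h.2.2 (List.cons.inj e).2
    · exact ih h.2.2 e

/-- the state before the hard marks -/
structure Init (F : Fo) (V : Finset ℕ) (wt : ℕ → ℕ) (K K0 : ℕ) (s : St) (M : List ℕ) : Prop where
  p : InvP F V wt K s
  pth : s.pth = Arr.cst []
  cov : s.cov = Arr.cst 0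
  mrk : ∀ x, s.cut.get x = true ↔ x ∈ V ∧ (x ∈ M ∨ F.par.get x = x)
  nd : M.Nodup
  sub : ∀ x ∈ M, x ∈ V ∧ F.par.get x ≠ x
  num : K0 * M.length ≤ ∑ x ∈ V, wt x

theorem Init.e {F : Fo} {V : Finset ℕ} {wt : ℕ → ℕ} {K K0 : ℕ} {s : St} {M : List ℕ}
    (h : Init F V wt K K0 s M) : InvE F V K [] s :=
  ⟨fun u k => by simp [h.pth] at k, fun u => by simp [h.pth], fun x u => by simp [h.pth, h.cov],
    fun x _ k => by simp [h.cov] at k⟩

theorem Init.fin {F : Fo} {V : Finset ℕ} {wt : ℕ → ℕ} {K K0 : ℕ} {s : St} {M : List ℕ}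
    (h : Init F V wt K K0 s M) : s.End := fun u k => by simp [h.pth] at k

/-- `build` up to the call of `hard` -/
theorem sp_build_of {g : Gl} {F : Fo} {V : Finset ℕ} {K K0 W De : ℕ} {wt : Arr ℕ}
    {ord : List ℕ} (hO : Ord F V ord) (hw : ∀ x ∈ V, 1 ≤ wt.get x ∧ wt.get x ≤ W)
    (hc : ∀ x ∈ V, (V.filter fun y => F.par.get y = x ∧ y ≠ x).card ≤ De) (hK : W + De * K0 ≤ K)
    (hX : ∑ x ∈ V, wt.get x ≤ g.X) {Q : St × List ℕ → ℕ → Prop}
    (k : ∀ s M t0, Init F V wt.get K K0 s M → t0 ≤ 4 * V.card + 4 →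
      Sp g (hard F M (s, [])) fun r t => Q (r.1.1, r.2.1) (t0 + t)) :
    Sp g (build F wt K0 ord) Q := by
  have cf := hO.cf
  have hl := hO.card
  refine (sp_preS (K := K0) (W := W) (c := De) cf (fun x hx => (hw x ((hO.mem x).1 hx)).2)
    (fun x hx => by rw [hO.countP]; exact hc x ((hO.mem x).1 hx))
    (by rw [hO.sum]; exact hX)).bind fun r t1 ⟨P, h1⟩ => ?_
  refine (sp_revL ord).bind fun td t2 ⟨e2, h2⟩ => ?_
  refine (sp_foldP _ td _).bind fun bp t3 ⟨e3, h3⟩ => ?_
  refine (sp_bucketP bp.get ord _).bind fun mem t4 ⟨e4, h4⟩ => ?_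
  have top : ∀ x ∈ ord, F.par.get x = x → r.2.1.get x = true := fun x hx e =>
    (P.cut x).2 ⟨hx, .inr e⟩
  have hb : ∀ x ∈ ord, bp.get x = if r.2.1.get x = true then x else bp.get (F.par.get x) := by
    rw [e3, e2]; exact foldl_rt cf top _
  simp only [Arr.get_cst, List.append_nil] at e4
  have I : Init F V wt.get K K0 ⟨r.2.1, Arr.cst [], Arr.cst 0, Arr.cst 0, bp, bp, mem⟩ r.2.2 := by
    refine ⟨⟨fun x hx => top x ((hO.mem x).2 hx), fun x hx => (hw x hx).1, fun a y => ?_,
      fun a => ?_, fun a l y m e c => ?_, fun a => ?_, fun x hx => hb x ((hO.mem x).2 hx)⟩, rfl, rfl,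
      fun x => by rw [← hO.mem]; exact P.cut x, P.nd,
      fun x hx => ⟨(hO.mem x).1 (P.sub x hx).1, (P.sub x hx).2⟩, hO.sum _ ▸ P.num⟩
    · simp [e4, hO.mem]
    · rw [e4, List.nodup_reverse]; exact hO.nd.filter _
    · dsimp only at e c
      rw [e4, List.reverse_eq_iff] at e
      have hy : y ∈ ord.filter fun x => bp.get x = a := by rw [e]; simp
      rw [List.mem_filter] at hy
      have n : F.par.get y ≠ y := fun k => by simp [top y hy.1 k] at c
      have := hb y hy.1
      rw [if_neg (by simp [c])] at this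
      exact List.mem_reverse.1 (cf.filter_up (A := m.reverse) (B := l.reverse) (by rw [e]; simp) n
        (by rw [← this]; exact hy.2))
    · have := P.big bp.get (fun x hx => ⟨fun c => by rw [hb x hx, if_pos ((P.cut x).2 ⟨hx, c⟩)],
        fun c => by rw [hb x hx, if_neg fun c' => c ((P.cut x).1 c').2]⟩) a
      rw [wsm_filter, mul_comm] at this
      dsimp only
      rw [e4, List.map_reverse, List.sum_reverse]
      exact this.trans hK
  refine sp_bind.2 ((k _ _ (t1 + t2 + t3 + t4) I ?_).mono fun a t h => ?_)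
  · rw [e2, List.length_reverse] at h3; omega
  · rw [sp_pure]; simpa only [add_assoc, add_zero] using h

end Crest.Agent.N325.Pc
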