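import Crest.Agent.N325.Pc.Basic

/-! Row 325 (helper86): hard marks. -/

set_option autoImplicit false
open Finset

namespace Crest.Agent.N325.Pc

open Tw

variable {F : Fo} {V : Finset ℕ} {D K : ℕ} {g : Gl} {s : St} {wt : ℕ → ℕ}

/-- the pure version of `reRt` -/
def reRtP (F : Fo) (cut : Arr Bool) (l : List ℕ) (rt : Arr ℕ) : Arr ℕ :=
  l.foldl (fun (a : Arr ℕ) y => a.set y (if cut.get y = true then y else a.get (F.par.get y))) rt

theorem reRtP_spec (cut : Arr Bool) (rt : Arr ℕ) {l : List ℕ} (hn : l.Nodup)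
    (ht : ∀ l1 y m, l = l1 ++ y :: m → cut.get y = false → F.par.get y ∈ l1) :
    (∀ y, y ∉ l → (reRtP F cut l rt).get y = rt.get y) ∧ ∀ y ∈ l, (reRtP F cut l rt).get y =
      if cut.get y = true then y else (reRtP F cut l rt).get (F.par.get y) := by
  induction l using List.reverseRecOn with
  | nil => exact ⟨fun _ _ => rfl, fun _ h => absurd h List.not_mem_nil⟩
  | append_singleton l y ih =>
    have hy : y ∉ l := fun h => by
      rw [List.nodup_append] at hn
      exact hn.2.2 y h y (List.mem_singleton_self y) rfl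
    obtain ⟨i1, i2⟩ := ih (List.Nodup.of_append_left hn) fun l1 z m e =>
      ht l1 z (m ++ [y]) (by simp [e])
    have e : reRtP F cut (l ++ [y]) rt = (reRtP F cut l rt).set y
        (if cut.get y = true then y else (reRtP F cut l rt).get (F.par.get y)) := by
      simp [reRtP, List.foldl_append]
    rw [e]
    refine ⟨fun z hz => ?_, fun z hz => ?_⟩
    · simp only [List.mem_append, List.mem_singleton, not_or] at hz
      rw [Arr.get_set_ne _ hz.2, i1 z hz.1]
    · have hp : cut.get z = false → F.par.get z ≠ y := fun hc k => by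
        obtain ⟨l1, m, e'⟩ := List.append_of_mem hz
        have h1 := ht l1 z m e' hc
        rcases List.eq_nil_or_concat m with rfl | ⟨m', y', rfl⟩
        · exact hy (k ▸ (List.append_inj_left' e' rfl) ▸ h1)
        · have : l = l1 ++ z :: m' :=
            List.append_inj_left' (t₁ := [y]) (t₂ := [y']) (by simp [e']) rfl
          exact hy (this ▸ List.mem_append_left _ (k ▸ h1))
      by_cases hzy : z = y
      · subst hzy
        rw [Arr.get_set_self]
        split_ifs with hc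
        · rfl
        · rw [Arr.get_set_ne _ (hp (Bool.eq_false_iff.2 hc))]
      · have hz' : z ∈ l := by simpa [hzy] using hz
        rw [Arr.get_set_ne _ hzy, i2 z hz']
        by_cases hc : cut.get z = true
        · rw [if_pos hc, if_pos hc]
        · rw [if_neg hc, if_neg hc, Arr.get_set_ne _ (hp (Bool.eq_false_iff.2 hc))]

theorem sp_reRt (cut : Arr Bool) (rt : Arr ℕ) {l : List ℕ} (hn : l.Nodup)
    (ht : ∀ l1 y m, l = l1 ++ y :: m → cut.get y = false → F.par.get y ∈ l1) :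
    Sp g (reRt F cut l rt) fun r t => (∀ y, y ∉ l → r.get y = rt.get y) ∧
      (∀ y ∈ l, r.get y = if cut.get y = true then y else r.get (F.par.get y)) ∧
      t = l.length + 1 :=
  (sp_foldP _ l rt).mono fun r t k => by
    obtain ⟨rfl, k⟩ := k
    exact ⟨(reRtP_spec cut rt hn ht).1, (reRtP_spec cut rt hn ht).2, k⟩

/-- the roots after new marks -/
theorem sp_reRts (P : InvP F V wt K s) {X : List ℕ} {cut : Arr Bool}
    (hc : ∀ y, cut.get y = if y ∈ X then true else s.cut.get y) :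
    Sp g (foldL (fun x rt => reRt F cut (s.mem.get (s.bp.get x)) rt) X s.rt) fun rt t =>
      InvP F V wt K { s with cut := cut, rt := rt } ∧ t ≤ X.length * (K + 2) + 1 := by
  have h1 : ∀ y, cut.get y = false → s.cut.get y = false := fun y h => by
    rw [hc] at h; split_ifs at h; exact h
  have h2 : ∀ b, ∀ y ∈ s.mem.get b, cut.get y = false → F.par.get y ∈ s.mem.get b := fun b y hy h => by
    obtain ⟨l, m, e⟩ := List.append_of_mem hy
    exact e ▸ List.mem_append_left _ (P.td b l y m e (h1 y h))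
  refine (sp_foldL' (fun X' (rt : Arr ℕ) => ∀ b, (∀ y ∈ s.mem.get b, rt.get y =
      if cut.get y = true then y else rt.get (F.par.get y)) ∨ ∃ x ∈ X', s.bp.get x = b)
    (fun _ => K + 1) (fun x X' rt k => (sp_reRt cut rt (P.nd _) fun l y m e h =>
      P.td _ l y m e (h1 y h)).mono fun r t k' => ⟨fun b => ?_, ?_⟩) (l := X) fun b => ?_).mono
    fun rt t k => ⟨⟨fun x hx e => ?_, P.one, P.mem, P.nd, fun r l y m e h => P.td r l y m e (h1 y h),
      P.sz, fun x hx => ?_⟩, ?_⟩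
  · by_cases e : s.bp.get x = b
    · exact .inl (e ▸ k'.2.1)
    · have h3 : ∀ y ∈ s.mem.get b, r.get y = rt.get y := fun y hy => k'.1 y fun h =>
        e (((P.mem _ y).1 h).2.symm.trans ((P.mem _ y).1 hy).2)
      rcases k b with k | ⟨x', hx', e'⟩
      · refine .inl fun y hy => ?_
        rw [h3 y hy, k y hy]
        split_ifs with h
        · rfl
        · rw [h3 _ (h2 b y hy (Bool.eq_false_iff.2 h))]
      · rcases List.mem_cons.1 hx' with rfl | hx'
        · exact absurd e' e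
        · exact .inr ⟨x', hx', e'⟩
  · have := P.len_mem (s.bp.get x); omega
  · by_cases e : ∃ x ∈ X, s.bp.get x = b
    · exact .inr e
    · refine .inl fun y hy => ?_
      have hy' := (P.mem b y).1 hy
      rw [hc, if_neg fun h => e ⟨y, h, hy'.2⟩]
      exact P.rt y hy'.1
  · change cut.get x = true
    rw [hc, P.top x hx e, ite_self]
  · rcases k.1 (s.bp.get x) with k | ⟨_, h, _⟩
    · exact k x ((P.mem _ x).2 ⟨hx, rfl⟩)
    · exact absurd h List.not_mem_nil
  · have := k.2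
    simp only [List.map_const', List.sum_replicate, smul_eq_mul] at this
    exact this

/-- what the repair of the edges does not change -/
structure Fx (s s' : St) : Prop where
  cut : s'.cut = s.cut
  rt : s'.rt = s.rt
  bp : s'.bp = s.bp
  mem : s'.mem = s.mem
  vt : ∀ x, s.Vt x → s'.Vt x
  pth : ∀ u, s'.pth.get u ≠ [] → s.pth.get u ≠ []

theorem Fx.trans {s1 s2 : St} (h : Fx s s1) (h' : Fx s1 s2) : Fx s s2 :=
  ⟨h'.cut.trans h.cut, h'.rt.trans h.rt, h'.bp.trans h.bp, h'.mem.trans h.mem,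
    fun x k => h'.vt x (h.vt x k), fun u k => h.pth u (h'.pth u k)⟩

theorem sp_fixE {B : List ℕ} {x : ℕ} (o : List ℕ) (E : InvE F V K (x :: B) s) (hE : s.End)
    (hx : s.cut.get x = true) :
    Sp g (fixE x (s, o)) fun so t => ∃ n, so.2 = n ++ o ∧ n.length ≤ 1 ∧
      Off V s so.1 n ∧ InvE F V K B so.1 ∧ so.1.End ∧ Fx s so.1 ∧ t ≤ 4 * K + 5 := by
  refine sp_ite.2 ⟨fun h => ⟨[], rfl, Nat.zero_le _, Off.refl V s,
    ⟨E.pa, E.len, E.cov, fun z h1 h2 => ?_⟩,
    hE, ⟨rfl, rfl, rfl, rfl, fun _ => id, fun _ => id⟩, Nat.zero_le _⟩, fun h => ?_⟩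
  · exact (List.mem_cons.1 (E.nc z h1 h2)).resolve_left fun e => h2 (e ▸ h)
  simp only at h ⊢
  obtain ⟨u, hu⟩ := Nat.exists_eq_succ_of_ne_zero h
  have hxu : x ∈ s.pth.get u := (E.cov x u).1 hu
  rw [hu, Nat.succ_sub_one]
  refine (sp_spn _ _).bind ?_
  rintro _ t ⟨rfl, ht⟩
  obtain ⟨hV, hP⟩ := E.pa u (List.ne_nil_of_mem hxu)
  have e := List.takeWhile_append_dropWhile (p := fun z => !s.cut.get z) (l := s.pth.get u)
  have hA : ∀ z ∈ (s.pth.get u).takeWhile fun z => !s.cut.get z, s.cut.get z = false :=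
    fun z hz => by simpa using List.mem_takeWhile_imp hz
  have hd := List.head?_dropWhile_not (fun z => !s.cut.get z) (s.pth.get u)
  generalize (s.pth.get u).takeWhile (fun z => !s.cut.get z) = A at e hA ⊢
  generalize (s.pth.get u).dropWhile (fun z => !s.cut.get z) = A' at e hd ⊢
  have hxA : x ∉ A := fun k => by simp [hA x k] at hx
  obtain _ | ⟨y, A'⟩ := A'
  · exact absurd (by simpa [← e] using hxu) hxA
  have hy : s.cut.get y = true := by simpa using hd
  have hK := E.len u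
  have hs : ∀ z ∈ A, z ∈ s.pth.get u := fun z hz => e ▸ List.mem_append_left _ hz
  refine (sp_setE (y := y) E hV (fun _ => (e ▸ hP : F.Pa u (A ++ y :: A') _).split.1)
    (by rw [← e, List.length_append] at hK; omega) fun z hz => ⟨hA z hz, .inr (hs z hz)⟩).mono ?_
  rintro ⟨s', o'⟩ t' ⟨h1, h3, h4, h5, h6, h7⟩
  simp only at h5 h6
  have e1 : s'.cut = s.cut := by rw [h5]
  have e2 : s'.pth = s.pth.set u A := by rw [h5]
  have e3 : s'.up = s.up.set u y := by rw [h5]
  have hv : ∀ z, s.Vt z → s'.Vt z := fun z hz => by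
    rw [St.Vt, e1, e2, Arr.get_set]
    split_ifs with k
    · subst k
      obtain _ | ⟨a, A⟩ := A
      · rw [← e] at hP
        exact .inl (hP.1 ▸ hy)
      · exact .inr (List.cons_ne_nil _ _)
    · exact hz
  refine ⟨[u], h1, le_rfl, h3, ⟨h4.pa, h4.len, h4.cov, fun z k1 k2 => ?_⟩, fun w hw => ?_,
    ⟨e1, by rw [h5], by rw [h5], by rw [h5], hv, fun w hw => ?_⟩, by omega⟩
  · refine (List.mem_cons.1 (h4.nc z k1 k2)).resolve_left ?_
    rintro rfl
    exact k2 (by rw [h6, if_neg hxA, if_pos hxu])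
  · change s'.Vt (s'.up.get w)
    change s'.pth.get w ≠ [] at hw
    rw [e2, Arr.get_set] at hw
    rw [e3, Arr.get_set]
    split_ifs at hw ⊢ with k
    · exact hv y (.inl hy)
    · exact hv _ (hE w hw)
  · change s'.pth.get w ≠ [] at hw
    rw [e2, Arr.get_set] at hw
    split_ifs at hw with k
    · exact k ▸ List.ne_nil_of_mem hxu
    · exact hw

theorem sp_fixEs {X : List ℕ} (o : List ℕ) (E : InvE F V K X s) (hE : s.End)
    (hx : ∀ x ∈ X, s.cut.get x = true) :
    Sp g (foldL fixE X (s, o)) fun so t => ∃ n, so.2 = n ++ o ∧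
      n.length ≤ X.length ∧ Off V s so.1 n ∧ InvE F V K [] so.1 ∧ so.1.End ∧
      Fx s so.1 ∧ t ≤ X.length * (4 * K + 6) + 1 := by
  refine (sp_foldL' (fun X' (so : So) => (∀ x ∈ X', s.cut.get x = true) ∧ ∃ n, so.2 = n ++ o ∧
      n.length + X'.length ≤ X.length ∧ Off V s so.1 n ∧ InvE F V K X' so.1 ∧
      so.1.End ∧ Fx s so.1) (fun _ => 4 * K + 5)
    (fun x X' so ⟨k0, n, k1, k2, k3, k4, k5, k6⟩ => (sp_fixE so.2 k4 k5
      (k6.cut ▸ k0 x List.mem_cons_self)).mono fun so' t ⟨n', j1, j2, j3, j4, j5, j6, j7⟩ =>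
        ⟨⟨fun y hy => k0 y (List.mem_cons_of_mem _ hy), n' ++ n, by rw [j1, k1]; simp,
          by rw [List.length_cons] at k2; rw [List.length_append]; omega, k3.trans j3, j4, j5,
          k6.trans j6⟩, j7⟩) (l := X) (s := (s, o))
    ⟨hx, [], rfl, by simp, Off.refl V s, E, hE,
      ⟨rfl, rfl, rfl, rfl, fun _ => id, fun _ => id⟩⟩).mono
    fun so t ⟨⟨_, n, k1, k2, k3, k4, k5, k6⟩, k7⟩ => ⟨n, k1, by simpa using k2, k3, k4, k5, k6, by
      simpa only [List.map_const', List.sum_replicate, smul_eq_mul] using k7⟩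

/-- hard marks at an arbitrary list of nodes -/
theorem sp_hardX {X : List ℕ} (o : List ℕ) (P : InvP F V wt K s) (E : InvE F V K [] s)
    (hE : s.End) :
    Sp g (hardX F X (s, o)) fun r t => r.2 = X.map s.rt.get ∧ (∃ n, r.1.2 = n ++ o ∧
        n.length ≤ X.length ∧ Off V s r.1.1 n) ∧ InvP F V wt K r.1.1 ∧
        InvE F V K [] r.1.1 ∧ r.1.1.End ∧
        (∀ y, r.1.1.cut.get y = (s.cut.get y || decide (y ∈ X))) ∧ (∀ x, s.Vt x → r.1.1.Vt x) ∧
        (∀ u, r.1.1.pth.get u ≠ [] → s.pth.get u ≠ []) ∧ r.1.1.bp = s.bp ∧ r.1.1.mem = s.mem ∧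
        t ≤ X.length * (5 * K + 11) + 5 := by
  refine (sp_setAllP _ _ _).bind fun cut t1 ⟨hc, h1⟩ => (sp_mapP _ _).bind ?_
  rintro _ _ ⟨rfl, rfl⟩
  have hc' : ∀ y, cut.get y = (s.cut.get y || decide (y ∈ X)) := fun y => by
    rw [hc]; split_ifs with h <;> simp [h]
  refine (sp_reRts P hc).bind fun rt t2 ⟨P', h2⟩ =>
    (sp_fixEs (F := F) (V := V) (K := K) (s := { s with cut := cut, rt := rt }) o
      ⟨E.pa, E.len, E.cov, fun x k1 k2 => ?_⟩ (fun u hu => (hE u hu).imp (fun k => ?_) id)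
      fun x hx => ?_).bind fun so t3 ⟨n, k1, k2, k3, k4, k5, k6, k7⟩ =>
    ⟨rfl, ⟨n, k1, k2, ⟨k3.ids, k3.eq⟩⟩, ?_, k4, k5, fun y => by rw [k6.cut]; exact hc' y,
      fun x hx => k6.vt x (hx.imp (fun k => ?_) id), k6.pth, k6.bp, k6.mem, ?_⟩
  · by_contra k
    change cut.get x = true at k1
    rw [hc, if_neg k] at k1
    exact absurd (E.nc x k1 k2) List.not_mem_nil
  · change cut.get _ = true
    rw [hc', k, Bool.true_or]
  · change cut.get _ = true
    rw [hc, if_pos hx]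
  · exact ⟨k6.cut ▸ P'.top, P'.one, k6.mem ▸ k6.bp ▸ P'.mem, k6.mem ▸ P'.nd,
      k6.mem ▸ k6.cut ▸ P'.td, k6.mem ▸ P'.sz, k6.rt ▸ k6.cut ▸ P'.rt⟩
  · change cut.get _ = true
    rw [hc', k, Bool.true_or]
  · rw [h1]; nlinarith

theorem length_flatMap_le {α β : Type} (f : α → List β) (l : List α) {D : ℕ}
    (h : ∀ x ∈ l, (f x).length ≤ D) : (l.flatMap f).length ≤ l.length * D := by
  induction l with
  | nil => simp
  | cons a l ih =>
    have := ih fun x hx => h x (List.mem_cons_of_mem _ hx)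
    have := h a List.mem_cons_self
    rw [List.flatMap_cons, List.length_append, List.length_cons, add_mul]; omega

/-- **hard marks** -/
theorem sp_hard {xs : List ℕ} {M : Finset ℕ} (o : List ℕ) (hW : F.WF V D)
    (P : InvP F V wt K s) (E : InvE F V K [] s)
    (hE : s.End) (hM : M ⊆ V) (hm : ∀ x ∈ V, s.cut.get x = true ↔ x ∈ M ∨ F.par.get x = x)
    (hcl : ∀ x ∈ M, x ∈ xs ∨ ∀ y ∈ F.cl.get x, y ∈ M) (hx : ∀ x ∈ xs, x ∈ V) :
    Sp g (hard F xs (s, o)) fun r t => r.2.1 = xs ++ xs.flatMap F.cl.get ∧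
      r.2.1.length ≤ xs.length * (D + 1) ∧ (∀ x ∈ r.2.1, x ∈ V) ∧
      r.2.2 = r.2.1.map s.rt.get ∧ (∃ n, r.1.2 = n ++ o ∧
        n.length ≤ r.2.1.length ∧ Off V s r.1.1 n) ∧
      Inv F V wt K (M ∪ r.2.1.toFinset) r.1.1 ∧
      (∀ y, r.1.1.cut.get y = (s.cut.get y || decide (y ∈ r.2.1))) ∧ (∀ x, s.Vt x → r.1.1.Vt x) ∧
      (∀ u, r.1.1.pth.get u ≠ [] → s.pth.get u ≠ []) ∧ r.1.1.bp = s.bp ∧ r.1.1.mem = s.mem ∧
      t ≤ xs.length * ((D + 1) * (5 * K + 15)) + 9 := by
  refine (sp_flatMapP _ _).bind ?_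
  rintro _ t0 ⟨rfl, h0⟩
  refine (sp_appL _ _).bind ?_
  rintro _ _ ⟨rfl, rfl⟩
  have hn : ∀ y ∈ xs ++ xs.flatMap F.cl.get, y ∈ V ∧
      ∀ z ∈ F.cl.get y, z ∈ xs ++ xs.flatMap F.cl.get := fun y h => by
    rcases List.mem_append.1 h with h | h
    · exact ⟨hx y h, fun z hz => List.mem_append_right _ (List.mem_flatMap.2 ⟨y, h, hz⟩)⟩
    · obtain ⟨x, h1, h2⟩ := List.mem_flatMap.1 h
      have k := (hW.cl x (hx x h1)).2 y h2
      exact ⟨k.1, fun z hz => List.mem_append_right _ (List.mem_flatMap.2 ⟨x, h1, k.2 z hz⟩)⟩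
  have hl0 := length_flatMap_le F.cl.get xs fun x h => (hW.cl x (hx x h)).1
  have hl : (xs ++ xs.flatMap F.cl.get).length ≤ xs.length * (D + 1) := by
    rw [List.length_append, mul_add]; omega
  refine (sp_hardX o P E hE).bind ?_
  rintro ⟨so, T⟩ t ⟨k1, k2, k3, k4, k5, k6, k7, k8, k9, k10, k11⟩
  refine ⟨rfl, hl, fun y h => (hn y h).1, k1, k2, ⟨k3, k4, k5,
    union_subset hM fun y h => (hn y (List.mem_toFinset.1 h)).1,
    fun y hy => ?_, fun y hy z hz => ?_⟩, k6, k7, k8, k9, k10, ?_⟩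
  · rw [k6, Bool.or_eq_true, hm y hy, decide_eq_true_eq, mem_union, List.mem_toFinset]; tauto
  · rw [mem_union, List.mem_toFinset] at hy ⊢
    rcases hy with hy | hy
    · exact (hcl y hy).elim (fun h => .inr ((hn y (List.mem_append_left _ h)).2 z hz))
        fun h => .inl (h z hz)
    · exact .inr ((hn y hy).2 z hz)
  · have := Nat.mul_le_mul_right (5 * K + 11) hl
    nlinarith [Nat.zero_le (xs.length * D)]

/-- hard marks in a state with the full invariant -/
theorem Inv.sp_hard {xs : List ℕ} {M : Finset ℕ} (I : Inv F V wt K M s) (o : List ℕ)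
    (hW : F.WF V D) (hx : ∀ x ∈ xs, x ∈ V) :
    Sp g (hard F xs (s, o)) fun r t => r.2.1 = xs ++ xs.flatMap F.cl.get ∧
      r.2.1.length ≤ xs.length * (D + 1) ∧ (∀ x ∈ r.2.1, x ∈ V) ∧
      r.2.2 = r.2.1.map s.rt.get ∧ (∃ n, r.1.2 = n ++ o ∧
        n.length ≤ r.2.1.length ∧ Off V s r.1.1 n) ∧
      Inv F V wt K (M ∪ r.2.1.toFinset) r.1.1 ∧
      (∀ y, r.1.1.cut.get y = (s.cut.get y || decide (y ∈ r.2.1))) ∧ (∀ x, s.Vt x → r.1.1.Vt x) ∧
      (∀ u, r.1.1.pth.get u ≠ [] → s.pth.get u ≠ []) ∧ r.1.1.bp = s.bp ∧ r.1.1.mem = s.mem ∧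
      t ≤ xs.length * ((D + 1) * (5 * K + 15)) + 9 :=
  Pc.sp_hard o hW I.p I.e I.fin I.sub I.mrk (fun x h => .inr (I.cl x h)) hx

end Crest.Agent.N325.Pc
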