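import Crest.Agent.N325.Pc.Bld1
import Crest.Agent.N325.Pc.Hard

/-! # Row 325 (helper75): the construction of the pieces -/

set_option autoImplicit false
open Finset

namespace Crest.Agent.N325.Pc

/-- **construction** -/
theorem sp_build {g : Gl} {F : Fo} {V : Finset ℕ} {D K K0 W De : ℕ} {wt : Arr ℕ} {ord : List ℕ}
    (hW : F.WF V D) (hO : Ord F V ord) (hw : ∀ x ∈ V, 1 ≤ wt.get x ∧ wt.get x ≤ W)
    (hc : ∀ x ∈ V, (V.filter fun y => F.par.get y = x ∧ y ≠ x).card ≤ De) (hK : W + De * K0 ≤ K)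
    (hX : ∑ x ∈ V, wt.get x ≤ g.X) :
    Sp g (build F wt K0 ord) fun r t => Inv F V wt.get K r.2.toFinset r.1 ∧
      (∀ u, r.1.pth.get u = []) ∧ (∀ x, r.1.cut.get x = true → x ∈ V) ∧
      K0 * r.2.length ≤ (D + 1) * ∑ x ∈ V, wt.get x ∧
      K0 * t ≤ K0 * (4 * V.card + 13) + (∑ x ∈ V, wt.get x) * ((D + 1) * (5 * K + 15)) := by
  refine sp_build_of hO hw hc hK hX fun s M t0 I h0 => ?_
  refine (sp_hard (M := M.toFinset) [] hW I.p I.e I.fin
    (fun x hx => (I.sub x (List.mem_toFinset.1 hx)).1)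
    (fun x hx => by rw [I.mrk, List.mem_toFinset]; simp [hx])
    (fun x hx => .inl (List.mem_toFinset.1 hx)) fun x hx => (I.sub x hx).1).mono ?_
  rintro r t ⟨h1, h2, h3, -, -, h4, h5, -, h6, -, -, h7⟩
  have := I.num
  refine ⟨?_, fun u => ?_, fun x hx => ?_, ?_, ?_⟩
  · rwa [Finset.union_eq_right.2 fun x hx => by
      rw [h1]; exact List.mem_toFinset.2 (List.mem_append_left _ (List.mem_toFinset.1 hx))] at h4
  · by_contra k
    exact h6 u k (by rw [I.pth]; rfl)
  · rw [h5, Bool.or_eq_true, decide_eq_true_eq] at hx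
    exact hx.elim (fun k => ((I.mrk x).1 k).1) (h3 x)
  · calc K0 * r.2.1.length ≤ K0 * (M.length * (D + 1)) := Nat.mul_le_mul_left _ h2
      _ = (D + 1) * (K0 * M.length) := by ring
      _ ≤ _ := Nat.mul_le_mul_left _ this
  · calc K0 * (t0 + t) ≤ K0 * (4 * V.card + 13 + M.length * ((D + 1) * (5 * K + 15))) :=
          Nat.mul_le_mul_left _ (by omega)
      _ = K0 * (4 * V.card + 13) + K0 * M.length * ((D + 1) * (5 * K + 15)) := by ring
      _ ≤ _ := Nat.add_le_add_left (Nat.mul_le_mul_right _ this) _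

/-- the construction with unit weights on the lifted forest -/
theorem sp_build1 {g : Gl} {F : Fo} {D K K0 De : ℕ} (hW : F.WF F.ord.toFinset D)
    (hn : F.ord.Nodup) (hp : Lt.PL F.par.get F.ord)
    (hc : ∀ y, (F.ord.filter fun x => F.par.get x = y ∧ x ≠ y).length ≤ De) (h0 : 0 < K0)
    (hK : 1 + De * K0 ≤ K) (hX : F.ord.length ≤ g.X) :
    Sp g (build F (Arr.cst 1) K0 F.ord) fun r t =>
      Inv F F.ord.toFinset (fun _ => 1) K r.2.toFinset r.1 ∧
      (∀ u, r.1.pth.get u = []) ∧ (∀ x, r.1.cut.get x = true → x ∈ F.ord) ∧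
      K0 * r.2.length ≤ (D + 1) * F.ord.length ∧
      t ≤ F.ord.length * ((D + 1) * (5 * K + 15) + 4) + 13 := by
  have hO := ord_of_pl hn hp
  have e : ∑ x ∈ F.ord.toFinset, (Arr.cst 1 : Arr ℕ).get x = F.ord.length := by simp [hO.card]
  refine (sp_build (W := 1) (De := De) hW hO (fun _ _ => ⟨le_rfl, le_rfl⟩) (fun x _ => ?_) hK
    (e ▸ hX)).mono fun r t ⟨h1, h2, h3, h4, h5⟩ =>
      ⟨h1, h2, fun x k => List.mem_toFinset.1 (h3 x k), e ▸ h4, ?_⟩
  · rw [← hO.countP, List.countP_eq_length_filter]; exact hc x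
  · rw [e, ← hO.card] at h5
    refine Nat.le_of_mul_le_mul_left (h5.trans ?_) h0
    have := Nat.mul_le_mul_right (F.ord.length * ((D + 1) * (5 * K + 15))) h0
    calc _ ≤ K0 * (4 * F.ord.length + 13) + K0 * (F.ord.length * ((D + 1) * (5 * K + 15))) := by
          omega
      _ = _ := by ring

end Crest.Agent.N325.Pc
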