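import Crest.Agent.N325.Lst.ListImpl
import Crest.Agent.N325.Lt.Defs

/-!
# Row 325 (helper75): greedy pre-marking of a rooted forest

The nodes are handled children first; a node whose residual subtree has `K` nodes is marked.
-/

set_option autoImplicit false

namespace Crest.Agent.N325.Pc

/-- children first: the parent of a node comes later in the list -/
def CF (par : ℕ → ℕ) : List ℕ → Prop
  | [] => True
  | x :: l => x ∉ l ∧ (par x = x ∨ par x ∈ l) ∧ CF par l

theorem cf_append {par : ℕ → ℕ} {l m : List ℕ} (h : CF par (l ++ m)) : CF par m := by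
  induction l with
  | nil => exact h
  | cons a l ih => exact ih h.2.2

theorem CF.nodup {par : ℕ → ℕ} {l : List ℕ} (h : CF par l) : l.Nodup := by
  induction l with
  | nil => exact List.nodup_nil
  | cons a l ih => exact List.nodup_cons.2 ⟨h.1, ih h.2.2⟩

theorem CF.par_mem {par : ℕ → ℕ} {l : List ℕ} (h : CF par l) {x : ℕ} (hx : x ∈ l) : par x ∈ l := by
  induction l with
  | nil => cases hx
  | cons a l ih =>
    rcases List.mem_cons.1 hx with rfl | hx
    · rcases h.2.1 with e | e
      · rw [e]; exact hx
      · exact List.mem_cons_of_mem _ e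
    · exact List.mem_cons_of_mem _ (ih h.2.2 hx)

/-- induction from the roots downwards -/
theorem CF.ind {par : ℕ → ℕ} {l : List ℕ} (h : CF par l) {P : ℕ → Prop}
    (k : ∀ x ∈ l, (par x ≠ x → P (par x)) → P x) : ∀ x ∈ l, P x := by
  induction l with
  | nil => intro x hx; cases hx
  | cons a l ih =>
    have ih := ih h.2.2 fun x hx => k x (List.mem_cons_of_mem _ hx)
    intro x hx
    rcases List.mem_cons.1 hx with rfl | hx
    · exact k x hx fun e => ih _ (h.2.1.resolve_left e)
    · exact ih x hx

/-- parents first in the usual form gives `CF` for the reversed list -/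
theorem cf_reverse {par : ℕ → ℕ} {l : List ℕ} (hn : l.Nodup)
    (h : ∀ p x q, l = p ++ x :: q → par x = x ∨ par x ∈ p) : CF par l.reverse := by
  induction l using List.reverseRecOn with
  | nil => trivial
  | append_singleton l a ih =>
    rw [List.reverse_append]
    refine ⟨fun k => ?_, ?_, ih (List.nodup_append.1 hn).1 fun p x q e => h p x (q ++ [a]) (by simp [e])⟩
    · exact (List.nodup_append.1 hn).2.2 a (List.mem_reverse.1 k) a (by simp) rfl
    · simpa using h l a [] rfl

theorem cf_of_pl {par : ℕ → ℕ} {l : List ℕ} (hn : l.Nodup) (h : Lt.PL par l) : CF par l := by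
  induction l with
  | nil => trivial
  | cons a l ih => exact ⟨(List.nodup_cons.1 hn).1, h.1, ih (List.nodup_cons.1 hn).2 h.2⟩

/-- the local equations of the root function -/
def RtEq (par : ℕ → ℕ) (M : ℕ → Prop) (l : List ℕ) (rt : ℕ → ℕ) : Prop :=
  ∀ x ∈ l, (M x ∨ par x = x → rt x = x) ∧ (¬(M x ∨ par x = x) → rt x = rt (par x))

theorem RtEq.unique {par : ℕ → ℕ} {M : ℕ → Prop} {l : List ℕ} {r r' : ℕ → ℕ} (h : CF par l)
    (a : RtEq par M l r) (b : RtEq par M l r') : ∀ x ∈ l, r x = r' x :=
  h.ind fun x hx ih => by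
    by_cases e : M x ∨ par x = x
    · rw [(a x hx).1 e, (b x hx).1 e]
    · rw [(a x hx).2 e, (b x hx).2 e, ih fun k => e (.inr k)]

/-- one node -/
def preStep (K : ℕ) (par : Arr ℕ) (x : ℕ) (s : Arr ℕ × List ℕ) : R (Arr ℕ × List ℕ) :=
  if par.get x = x then pure s
  else if K ≤ s.1.get x + 1 then pure (s.1, x :: s.2)
  else nat (s.1.get (par.get x) + (s.1.get x + 1)) >>= fun v => pure (s.1.set (par.get x) v, s.2)

/-- the marks, for a list that has the children first -/
def premarkC (K : ℕ) (par : Arr ℕ) (l : List ℕ) : R (List ℕ) :=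
  foldL (preStep K par) l (Arr.cst 0, []) >>= fun s => pure s.2

/-- the marks, for a list that has the parents first -/
def premark (K : ℕ) (par : Arr ℕ) (ord : List ℕ) : R (List ℕ) := revL ord >>= premarkC K par

/-- the invariant: `D` = nodes done, `top` = current representative -/
structure PreI (K c : ℕ) (par : ℕ → ℕ) (D : List ℕ) (w : ℕ → ℕ) (M : List ℕ) (top : ℕ → ℕ) :
    Prop where
  nd : M.Nodup
  sub : ∀ x ∈ M, x ∈ D ∧ par x ≠ x
  eq : RtEq par (· ∈ M) D top
  out : ∀ z ∉ D, top z = z
  cnt : ∀ z ∉ D, w z = D.countP (top · = z)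
  le : ∀ z ∉ D, w z ≤ (K - 1) * D.countP fun y => par y = z ∧ y ≠ z
  big : ∀ r ∈ D, D.countP (top · = r) ≤ 1 + (K - 1) * c
  num : K * M.length + D.countP (top · ∉ D) ≤ D.length

theorem countP_le_of {D : List ℕ} {p q : ℕ → Bool} (h : ∀ y ∈ D, p y → q y) :
    D.countP p ≤ D.countP q := List.countP_mono_left h

theorem countP_split {D : List ℕ} {p q r : ℕ → Bool} (h : ∀ y ∈ D, (p y).toNat = (q y).toNat + (r y).toNat) :
    D.countP p = D.countP q + D.countP r := by
  induction D with
  | nil => rfl
  | cons a D ih =>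
    have := h a List.mem_cons_self
    have := ih fun y hy => h y (List.mem_cons_of_mem _ hy)
    simp only [List.countP_cons]
    cases hp : p a <;> cases hq : q a <;> cases hr : r a <;> simp_all <;> omega

variable {K c : ℕ} {par : ℕ → ℕ} {D : List ℕ} {w : ℕ → ℕ} {M : List ℕ} {top : ℕ → ℕ} {x : ℕ}

/-- the node `x` closes its piece -/
theorem PreI.close (I : PreI K c par D w M top) (hx : x ∉ D)
    (hc : D.countP (fun y => par y = x ∧ y ≠ x) ≤ c) {M' : List ℕ}
    (hM : (par x = x ∧ M' = M) ∨ (par x ≠ x ∧ K ≤ w x + 1 ∧ M' = x :: M)) :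
    PreI K c par (x :: D) w M' top := by
  have tx := I.out x hx
  have hm : ∀ y, y ≠ x → (y ∈ M' ↔ y ∈ M) := fun y hy => by
    rcases hM with ⟨-, rfl⟩ | ⟨-, -, rfl⟩ <;> simp [hy]
  have sp : D.countP (top · ∉ D) = D.countP (top · ∉ x :: D) + D.countP (top · = x) :=
    countP_split fun y _ => by
      by_cases e : top y = x
      · simp [e, hx]
      · simp [e]
  refine ⟨?_, fun y hy => ?_, fun y hy => ?_, fun z hz => I.out z fun k => hz (.tail _ k),
    fun z hz => ?_, fun z hz => ?_, fun r hr => ?_, ?_⟩
  · rcases hM with ⟨-, rfl⟩ | ⟨-, -, rfl⟩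
    exacts [I.nd, List.nodup_cons.2 ⟨fun k => hx (I.sub x k).1, I.nd⟩]
  · rcases hM with ⟨-, rfl⟩ | ⟨k, -, rfl⟩
    · exact ⟨.tail _ (I.sub y hy).1, (I.sub y hy).2⟩
    · rcases List.mem_cons.1 hy with rfl | hy
      exacts [⟨.head _, k⟩, ⟨.tail _ (I.sub y hy).1, (I.sub y hy).2⟩]
  · rcases List.mem_cons.1 hy with rfl | hy
    · refine ⟨fun _ => tx, fun k => absurd ?_ k⟩
      rcases hM with ⟨k, -⟩ | ⟨-, -, rfl⟩
      exacts [.inr k, .inl (.head _)]
    · simp only [hm y fun e => hx (e ▸ hy)]
      exact I.eq y hy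
  · have : x ≠ z := fun e => hz (e ▸ .head _)
    rw [List.countP_cons, I.cnt z fun k => hz (.tail _ k)]
    simp [tx, this]
  · refine (I.le z fun k => hz (.tail _ k)).trans (Nat.mul_le_mul_left _ ?_)
    rw [List.countP_cons]; omega
  · rw [List.countP_cons]
    by_cases e : r = x
    · subst e
      have := I.cnt r hx
      have := (I.le r hx).trans (Nat.mul_le_mul_left _ hc)
      split_ifs <;> omega
    · have := I.big r ((List.mem_cons.1 hr).resolve_left e)
      have e' : ¬x = r := fun k => e k.symm
      simpa [tx, e'] using this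
  · have := I.num
    have := I.cnt x hx
    rw [List.countP_cons, List.length_cons]
    have e : ¬(decide (top x ∉ x :: D) = true) := by simp [tx]
    rw [if_neg e]
    rcases hM with ⟨-, rfl⟩ | ⟨-, k, rfl⟩
    · omega
    · rw [List.length_cons, mul_add]; omega

/-- the node `x` hands its weight to its parent -/
theorem PreI.push (I : PreI K c par D w M top) (hx : x ∉ D) (hp : par x ∉ D) (hr : par x ≠ x)
    (hK : w x + 1 < K) :
    PreI K c par (x :: D) (Function.update w (par x) (w (par x) + (w x + 1))) M
      fun y => if top y = x then par x else top y := by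
  have tx := I.out x hx
  have tp := I.out _ hp
  have nm : x ∉ M := fun k => hx (I.sub x k).1
  refine ⟨I.nd, fun y hy => ⟨.tail _ (I.sub y hy).1, (I.sub y hy).2⟩, fun y hy => ?_,
    fun z hz => ?_, fun z hz => ?_, fun z hz => ?_, fun r hr' => ?_, ?_⟩
  · rcases List.mem_cons.1 hy with rfl | hy
    · exact ⟨fun k => absurd k (by simp [nm, hr]), fun _ => by simp [tx, tp]⟩
    · refine ⟨fun k => ?_, fun k => by simp only [(I.eq y hy).2 k]⟩
      have : y ≠ x := fun e => hx (e ▸ hy)
      simp [(I.eq y hy).1 k, this]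
  · have : z ≠ x := fun e => hz (e ▸ .head _)
    simp [I.out z fun k => hz (.tail _ k), this]
  · have zx : z ≠ x := fun e => hz (e ▸ .head _)
    have zD : z ∉ D := fun k => hz (.tail _ k)
    rw [List.countP_cons]
    by_cases e : z = par x
    · subst e
      rw [Function.update_self, I.cnt _ hp, I.cnt x hx, countP_split (D := D)
        (p := fun y => (if top y = x then par x else top y) = par x) (q := (top · = par x))
        (r := (top · = x)) fun y _ => by
          by_cases k : top y = x
          · simp [k, hr.symm]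
          · simp [k]]
      simp [tx]; omega
    · rw [Function.update_of_ne e, I.cnt z zD]
      have e' : ¬par x = z := fun k => e k.symm
      simp only [tx, if_true, e', decide_false, Bool.false_eq_true, if_false, add_zero]
      refine List.countP_congr fun y _ => ?_
      by_cases k : top y = x
      · simp [k, e', zx.symm]
      · simp [k]
  · have zD : z ∉ D := fun k => hz (.tail _ k)
    have := I.le z zD
    rw [List.countP_cons]
    by_cases e : z = par x
    · subst e
      rw [Function.update_self, if_pos (by simp [hr.symm]), mul_add]; omega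
    · rw [Function.update_of_ne e]
      exact this.trans (Nat.mul_le_mul_left _ (Nat.le_add_right _ _))
  · have e : ¬par x = r := fun k => by
      rcases List.mem_cons.1 hr' with rfl | h
      exacts [hr k, hp (k ▸ h)]
    rw [List.countP_cons]
    simp only [tx, if_true, e, decide_false, Bool.false_eq_true, if_false, add_zero]
    rcases List.mem_cons.1 hr' with rfl | h
    · rw [List.countP_eq_zero.2 fun y _ => by by_cases k : top y = r <;> simp [k, e]]
      exact Nat.zero_le _
    · refine le_trans (countP_le_of fun y _ => ?_) (I.big r h)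
      by_cases k : top y = x
      · simp [k, e]
      · simp [k]
  · have := I.num
    have : D.countP (fun y => (if top y = x then par x else top y) ∉ x :: D) ≤
        D.countP (top · ∉ D) := countP_le_of fun y _ => by
      by_cases k : top y = x
      · simp [k, hx]
      · simp [k]
    rw [List.countP_cons, List.length_cons]
    split_ifs <;> omega

/-- what the marks achieve -/
structure PreRes (K c : ℕ) (par : ℕ → ℕ) (l M : List ℕ) : Prop where
  nd : M.Nodup
  sub : ∀ x ∈ M, x ∈ l ∧ par x ≠ x
  num : K * M.length ≤ l.length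
  big : ∀ rt, RtEq par (· ∈ M) l rt → ∀ r, l.countP (rt · = r) ≤ 1 + (K - 1) * c

theorem sp_premarkC {g : Gl} {par : Arr ℕ} {l : List ℕ} (h : CF par.get l)
    (hc : ∀ x ∈ l, l.countP (fun y => par.get y = x ∧ y ≠ x) ≤ c) (hX : l.length ≤ g.X) :
    Sp g (premarkC K par l) fun M t => PreRes K c par.get l M ∧ t ≤ l.length + 1 := by
  have key := sp_foldL' (g := g) (f := preStep K par)
    (fun l' s => ∃ D top, D.reverse ++ l' = l ∧ PreI K c par.get D s.1.get s.2 top) (fun _ => 0)
    (fun x l' s ⟨D, top, e, I⟩ => ?_) (l := l) (s := (Arr.cst 0, []))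
    ⟨[], id, rfl, ⟨List.nodup_nil, by simp, by simp [RtEq], by simp, by simp, by simp, by simp, by simp⟩⟩
  · refine key.bind fun s t ⟨⟨D, top, e, I⟩, k⟩ => ?_
    rw [List.append_nil] at e
    have hm : ∀ y, y ∈ D ↔ y ∈ l := fun y => by rw [← e, List.mem_reverse]
    have hl : D.length = l.length := by rw [← e, List.length_reverse]
    refine sp_pure.2 ⟨⟨I.nd, fun x hx => ⟨(hm x).1 (I.sub x hx).1, (I.sub x hx).2⟩,
      by have := I.num; omega, fun rt hrt r => ?_⟩, by simpa using k⟩
    have u := RtEq.unique h hrt (r' := top) fun x hx => I.eq x ((hm x).2 hx)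
    have c1 : l.countP (rt · = r) = D.countP (top · = r) := by
      rw [List.countP_congr (q := (top · = r)) fun y hy => by simp [u y hy], ← e,
        List.countP_reverse]
    rw [c1]
    by_cases hr : r ∈ D
    · exact I.big r hr
    · have hin : ∀ y ∈ l, top y ∈ l := h.ind fun y hy ih => by
        by_cases k : y ∈ s.2 ∨ par.get y = y
        · rw [(I.eq y ((hm y).2 hy)).1 k]; exact hy
        · rw [(I.eq y ((hm y).2 hy)).2 k]; exact ih fun k' => k (.inr k')
      rw [List.countP_eq_zero.2 fun y hy k => hr ((hm r).2 (by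
        rw [← of_decide_eq_true k]; exact hin y ((hm y).1 hy)))]
      exact Nat.zero_le _
  · have nd := h.nodup
    have cf : CF par.get (x :: l') := cf_append (e ▸ h)
    rw [← e, List.nodup_append] at nd
    have xD : x ∉ D := fun k => nd.2.2 x (List.mem_reverse.2 k) x (.head _) rfl
    have e' : (x :: D).reverse ++ l' = l := by rw [← e]; simp
    have hc' : D.countP (fun y => par.get y = x ∧ y ≠ x) ≤ c := by
      refine le_trans ?_ (hc x (by rw [← e]; simp))
      rw [← e, List.countP_append, List.countP_reverse]; omega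
    unfold preStep
    split_ifs with h1 h2
    · exact ⟨⟨_, top, e', I.close xD hc' (.inl ⟨h1, rfl⟩)⟩, le_rfl⟩
    · exact ⟨⟨_, top, e', I.close xD hc' (.inr ⟨h1, h2, rfl⟩)⟩, le_rfl⟩
    · have pD : par.get x ∉ D := fun k =>
        nd.2.2 _ (List.mem_reverse.2 k) _ (.tail _ (cf.2.1.resolve_left h1)) rfl
      have J := I.push xD pD h1 (by omega)
      refine sp_bind.2 (sp_nat.2 ⟨?_, ⟨_, _, e', by rw [Arr.set_get]; exact J⟩, le_rfl⟩)
      have := J.cnt (par.get x) (by simp [h1, pD])
      rw [Function.update_self] at this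
      rw [this]
      refine List.countP_le_length.trans (le_trans ?_ hX)
      rw [← e']; simp

theorem PreRes.reverse {l : List ℕ} (h : PreRes K c par l.reverse M) : PreRes K c par l M :=
  ⟨h.nd, fun x hx => by simpa using h.sub x hx, by simpa using h.num, fun rt k r => by
    have := h.big rt (fun x hx => k x (List.mem_reverse.1 hx)) r
    rwa [List.countP_reverse] at this⟩

/-- **pre-marking** -/
theorem sp_premark {g : Gl} {par : Arr ℕ} {ord : List ℕ} (h : CF par.get ord.reverse)
    (hc : ∀ x ∈ ord, ord.countP (fun y => par.get y = x ∧ y ≠ x) ≤ c) (hX : ord.length ≤ g.X) :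
    Sp g (premark K par ord) fun M t => PreRes K c par.get ord M ∧ t ≤ 2 * ord.length + 2 :=
  (sp_revL ord).bind fun r t k => by
    rw [k.1]
    refine (sp_premarkC (c := c) h (fun x hx => ?_) (by simpa using hX)).mono fun M s k' =>
      ⟨k'.1.reverse, by have := k'.2; rw [List.length_reverse] at this; omega⟩
    rw [List.countP_reverse]; exact hc x (List.mem_reverse.1 hx)

/-- **pre-marking**, in the form of `Lt.LF.Ok` (children first) -/
theorem sp_premarkC' {g : Gl} {par : Arr ℕ} {l : List ℕ} (hn : l.Nodup) (h : Lt.PL par.get l)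
    (hc : ∀ y, (l.filter fun x => par.get x = y ∧ x ≠ y).length ≤ c) (hX : l.length ≤ g.X) :
    Sp g (premarkC K par l) fun M t => PreRes K c par.get l M ∧ t ≤ l.length + 1 :=
  sp_premarkC (cf_of_pl hn h) (fun x _ => by rw [List.countP_eq_length_filter]; exact hc x) hX

@[fun_prop] theorem impl_premarkC {α : Type} [Rp α] {K : α → ℕ} {par : α → Arr ℕ}
    {l : α → List ℕ} (h1 : Pu true K) (h2 : Pu true par) (h3 : Pu true l) :
    Impl fun a => premarkC (K a) (par a) (l a) := by
  impl

@[fun_prop] theorem impl_premark {α : Type} [Rp α] {K : α → ℕ} {par : α → Arr ℕ} {l : α → List ℕ}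
    (h1 : Pu true K) (h2 : Pu true par) (h3 : Pu true l) :
    Impl fun a => premark (K a) (par a) (l a) := by
  impl

end Crest.Agent.N325.Pc
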