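import Crest.Agent.N325.Pc.Basic

/-! # Row 325 (helper75): the soft mark -/

set_option autoImplicit false
open Finset

namespace Crest.Agent.N325.Pc

variable {F : Fo} {V : Finset ℕ} {D K : ℕ} {x y u : ℕ} {P : List ℕ} {g : Gl} {wt : ℕ → ℕ}
  {s : St} {o : List ℕ}

/-- the parts of the state that a soft mark does not change -/
structure Same (s s' : St) : Prop where
  cut : s'.cut = s.cut
  rt : s'.rt = s.rt
  bp : s'.bp = s.bp
  mem : s'.mem = s.mem
  vt : ∀ x, s.Vt x → s'.Vt x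

theorem Same.refl (s : St) : Same s s := ⟨rfl, rfl, rfl, rfl, fun _ h => h⟩

theorem Same.trans {s1 s2 : St} (h : Same s s1) (k : Same s1 s2) : Same s s2 :=
  ⟨k.cut.trans h.cut, k.rt.trans h.rt, k.bp.trans h.bp, k.mem.trans h.mem,
    fun x a => k.vt x (h.vt x a)⟩

theorem Same.invP {s' : St} (h : Same s s') (I : InvP F V wt K s) : InvP F V wt K s' := by
  obtain ⟨h1, h2, h3, h4, -⟩ := h
  exact ⟨by rw [h1]; exact I.top, I.one, by rw [h4, h3]; exact I.mem, by rw [h4]; exact I.nd,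
    by rw [h4, h1]; exact I.td, by rw [h4]; exact I.sz, by rw [h2, h1]; exact I.rt⟩

theorem sp_setE' (E : InvE F V K [] s) (hu : u ∈ V) (hP : F.Pa u P y) (hne : P ≠ [])
    (hK : P.length ≤ K)
    (hz : ∀ z ∈ P, s.cut.get z = false ∧ (s.cov.get z = 0 ∨ z ∈ s.pth.get u)) :
    Sp g (setE u P y (s, o)) fun so t => so.2 = u :: o ∧ Off V s so.1 [u] ∧ InvE F V K [] so.1 ∧
      Same s so.1 ∧ so.1.pth = s.pth.set u P ∧ so.1.up = s.up.set u y ∧
      (∀ x, so.1.cov.get x =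
        if x ∈ P then u + 1 else if x ∈ s.pth.get u then 0 else s.cov.get x) ∧
      t ≤ 2 * K + 2 :=
  (sp_setE E hu (fun _ => hP) hK hz).mono fun so t ⟨h1, h2, h3, h4, h5, h6⟩ => by
    refine ⟨h1, h2, h3, ⟨by rw [h4], by rw [h4], by rw [h4], by rw [h4], fun x k => ?_⟩, by rw [h4],
      by rw [h4], h5, h6⟩
    rw [h4]
    refine k.imp id fun k => ?_
    simp only [Arr.get_set]
    split_ifs
    exacts [hne, k]

theorem InvE.uncut (E : InvE F V K [] s) (h : x ∈ s.pth.get u) : s.cut.get x = false := by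
  cases e : s.cut.get x
  · rfl
  · have := (E.cov x u).2 h
    exact absurd (E.nc x e (by omega)) List.not_mem_nil

theorem span_ne {l : List ℕ} (h : y ∈ l) : ∃ B, l.dropWhile (fun z => decide (z ≠ y)) = y :: B := by
  induction l with
  | nil => cases h
  | cons a l ih =>
    by_cases e : a = y
    · exact ⟨l, by simp [e]⟩
    · obtain ⟨B, k⟩ := ih ((List.mem_cons.1 h).resolve_left fun k => e k.symm)
      exact ⟨B, by rw [List.dropWhile_cons_of_pos (by simpa using e), k]⟩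

theorem sp_mkV (hW : F.WF V D) (E : InvE F V K [] s) (hE : s.End)
    (h : s.cut.get y = true ∨ s.cov.get y ≠ 0) :
    Sp g (mkV y (s, o)) fun so t => (∃ n, so.2 = n ++ o ∧ n.length ≤ 2 ∧ Off V s so.1 n) ∧
      InvE F V K [] so.1 ∧ so.1.End ∧ so.1.Vt y ∧ Same s so.1 ∧
      (∀ z, s.cov.get z = 0 → so.1.cov.get z = 0) ∧ t ≤ 6 * K + 7 := by
  unfold mkV
  dsimp only
  split_ifs with c
  · exact ⟨⟨[], rfl, Nat.zero_le _, Off.refl V s⟩, E, hE,
      c.imp id fun k => List.ne_nil_of_mem ((E.cov y y).1 k), Same.refl s, fun _ k => k,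
      Nat.zero_le _⟩
  rw [not_or] at c
  obtain ⟨u, hu⟩ : ∃ u, s.cov.get y = u + 1 :=
    Nat.exists_eq_add_one.2 (Nat.pos_of_ne_zero (h.resolve_left c.1))
  have uy : u ≠ y := fun e => c.2 (e ▸ hu)
  have ym := (E.cov y u).1 hu
  have ne := List.ne_nil_of_mem ym
  obtain ⟨uV, pa⟩ := E.pa u ne
  obtain ⟨B, hB⟩ := span_ne ym
  have hl := E.len u
  have nd := pa.nodup hW uV
  have yV := ((pa.mem hW uV).2 y ym).1
  have py : s.pth.get y = [] := by
    by_contra k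
    exact c.2 ((E.cov y y).2 ((E.pa y k).2.head k))
  rw [hu, Nat.add_sub_cancel]
  refine (sp_spn _ _).bind ?_
  rintro _ _ ⟨rfl, rfl⟩
  have e := List.takeWhile_append_dropWhile (p := fun z => decide (z ≠ y)) (l := s.pth.get u)
  dsimp only
  rw [hB] at e ⊢
  generalize (s.pth.get u).takeWhile (fun z => decide (z ≠ y)) = A at e ⊢
  have hm : ∀ z, z ∈ s.pth.get u ↔ z ∈ A ∨ z ∈ y :: B := fun z => by rw [← e, List.mem_append]
  have hlen : A.length + (y :: B).length ≤ K := by rw [← List.length_append, e]; exact hl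
  rw [← e] at pa nd
  have An : A ≠ [] := fun k => uy (by rw [k] at pa; exact pa.1.symm)
  refine (sp_setE' E uV pa.split.1 An (by omega) fun z hz =>
    ⟨E.uncut ((hm z).2 (.inl hz)), .inr ((hm z).2 (.inl hz))⟩).bind ?_
  rintro ⟨s1, o1⟩ t1 ⟨a1, a2, a3, a4, a5, a6, a7, a8⟩
  dsimp only at a1 a2 a3 a4 a5 a6 a7
  refine (sp_setE' a3 yV pa.split.2 (List.cons_ne_nil _ _) (by omega) fun z hz => ?_).mono ?_
  · refine ⟨by rw [a4.cut]; exact E.uncut ((hm z).2 (.inr hz)), .inl ?_⟩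
    rw [a7, if_neg fun k => (List.nodup_append.1 nd).2.2 z k z hz rfl, if_pos ((hm z).2 (.inr hz))]
  rintro ⟨s2, o2⟩ t2 ⟨b1, b2, b3, b4, b5, b6, b7, b8⟩
  dsimp only at b1 b2 b3 b4 b5 b6 b7 ⊢
  have S := a4.trans b4
  have vy : s2.Vt y := .inr (by rw [b5, Arr.get_set_self]; exact List.cons_ne_nil _ _)
  refine ⟨⟨[y] ++ [u], by rw [b1, a1]; rfl, le_rfl, a2.trans b2⟩, b3, fun v hv => ?_, vy, S,
    fun z hz => ?_, by omega⟩
  · rw [b6, a6]
    by_cases e1 : v = y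
    · rw [e1, Arr.get_set_self]; exact S.vt _ (hE u ne)
    · rw [Arr.get_set_ne _ e1]
      by_cases e2 : v = u
      · rw [e2, Arr.get_set_self]; exact vy
      · rw [Arr.get_set_ne _ e2]
        rw [b5, a5, Arr.get_set_ne _ e1, Arr.get_set_ne _ e2] at hv
        exact S.vt _ (hE v hv)
  · have k : z ∉ s.pth.get u := fun k => by have := (E.cov z u).2 k; omega
    rw [hm, not_or] at k
    rw [b7, if_neg k.2, a7, if_neg k.1, hz]
    simp

theorem sp_climb {fu : ℕ} (hW : F.WF V D) (I : InvP F V wt K s) (hx : x ∈ V) (hf : K < fu) :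
    Sp g (climb F fu x s) fun r t => F.Pa x r.2.reverse r.1 ∧
      (∀ z ∈ r.2, s.cut.get z = false ∧ s.cov.get z = 0) ∧
      (s.cut.get r.1 = true ∨ s.cov.get r.1 ≠ 0) ∧ t ≤ K + 1 := by
  refine (sp_whileF' (fun r : ℕ × List ℕ => F.Pa x r.2.reverse r.1 ∧
    ∀ z ∈ r.2, s.cut.get z = false ∧ s.cov.get z = 0) (fun r => K - r.2.length)
    (fun r ⟨h1, h2⟩ c => ?_) (s := (x, [])) ⟨rfl, by simp⟩ (by simpa using hf)).mono
      fun r t ⟨c, ⟨h1, h2⟩, k⟩ => ⟨h1, h2, ?_, by dsimp only at k; simp at k; omega⟩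
  · simp only [Bool.and_eq_true, Bool.not_eq_true', decide_eq_true_eq] at c
    have n : F.par.get r.1 ≠ r.1 := fun e => by
      rw [I.top _ (h1.mem hW hx).1 e] at c; cases c.1
    have k1 := h1.snoc n
    have k2 : ∀ z ∈ r.1 :: r.2, s.cut.get z = false ∧ s.cov.get z = 0 := fun z hz =>
      (List.mem_cons.1 hz).elim (fun e => e ▸ c) (h2 z)
    have k3 := I.pa_len hW k1 hx fun z hz => (k2 z (by simpa [or_comm] using hz)).1
    refine ⟨⟨by rw [List.reverse_cons]; exact k1, k2⟩, ?_⟩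
    simp only [List.length_append, List.length_reverse, List.length_cons, List.length_nil] at k3 ⊢
    omega
  · cases e : s.cut.get r.1
    · right; simpa [e] using c
    · exact .inl rfl

/-- **the soft mark** -/
theorem sp_soft {fu : ℕ} {M : Finset ℕ} (o : List ℕ) (hW : F.WF V D) (I : Inv F V wt K M s)
    (hx : x ∈ V) (hf : K < fu) :
    Sp g (soft F fu x (s, o)) fun so t => (∃ n, so.2 = n ++ o ∧ n.length ≤ 3 ∧ Off V s so.1 n) ∧
      Inv F V wt K M so.1 ∧ so.1.Vt x ∧ Same s so.1 ∧ t ≤ 10 * K + 11 := by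
  refine (sp_climb hW I.p hx hf).bind fun r t1 ⟨a1, a2, a3, a4⟩ => ?_
  refine (sp_mkV hW I.e I.fin a3).bind ?_
  rintro ⟨s1, o1⟩ t2 ⟨⟨n, b1, b2, b3⟩, b4, b5, b6, b7, b8, b9⟩
  dsimp only at b1 b3 b4 b5 b6 b7 b8
  have hl : r.2.reverse.length ≤ K :=
    I.p.pa_len hW a1 hx fun z hz => (a2 z (List.mem_reverse.1 hz)).1
  split_ifs with c
  · rw [List.isEmpty_iff.1 c] at a1
    exact ⟨⟨n, b1, by omega, b3⟩, ⟨b7.invP I.p, b4, b5, I.sub, by rw [b7.cut]; exact I.mrk, I.cl⟩,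
      pa_nil.1 a1 ▸ b6, b7, by omega⟩
  have ne : r.2.reverse ≠ [] := by simpa using c
  refine (sp_revL _).bind ?_
  rintro _ _ ⟨rfl, rfl⟩
  refine (sp_setE' b4 hx a1 ne hl fun z hz => ?_).mono ?_
  · have := a2 z (List.mem_reverse.1 hz)
    exact ⟨by rw [b7.cut]; exact this.1, .inl (b8 z this.2)⟩
  rintro ⟨s2, o2⟩ t3 ⟨c1, c2, c3, c4, c5, c6, -, c8⟩
  dsimp only at c1 c2 c3 c4 c5 c6 ⊢
  have S := b7.trans c4
  rw [List.length_reverse] at hl
  refine ⟨⟨[x] ++ n, by rw [c1, b1]; rfl, by simp; omega, b3.trans c2⟩,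
    ⟨S.invP I.p, c3, fun v hv => ?_, I.sub, by rw [S.cut]; exact I.mrk, I.cl⟩,
    .inr (by rw [c5, Arr.get_set_self]; exact ne), S, by omega⟩
  rw [c6]
  by_cases e : v = x
  · rw [e, Arr.get_set_self]; exact c4.vt _ b6
  · rw [Arr.get_set_ne _ e]
    rw [c5, Arr.get_set_ne _ e] at hv
    exact c4.vt _ (b5 v hv)

end Crest.Agent.N325.Pc
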