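import Crest.Agent.N325.Pc.Root
import Crest.Agent.N325.Pc.Impl

/-! # Row 325 (helper42): pieces — soft marks at all nodes of a list -/

set_option autoImplicit false
open Finset

namespace Crest.Agent.N325.Pc

variable {F : Fo} {V M : Finset ℕ} {D K : ℕ} {wt : ℕ → ℕ} {s : St} {g : Gl} {o : List ℕ}

/-- soft marks at all nodes of a list -/
def softs (F : Fo) (fu : ℕ) (l : List ℕ) (so : So) : R So := foldL (soft F fu) l so

theorem sp_softs {fu : ℕ} {l : List ℕ} (o : List ℕ) (hW : F.WF V D) (I : Inv F V wt K M s)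
    (hl : ∀ x ∈ l, x ∈ V) (hfu : K < fu) :
    Sp g (softs F fu l (s, o)) fun so t => (∃ n, so.2 = n ++ o ∧ n.length ≤ 3 * l.length ∧
      Off V s so.1 n) ∧ Inv F V wt K M so.1 ∧ (∀ x ∈ l, so.1.Vt x) ∧ Same s so.1 ∧
      t ≤ l.length * (10 * K + 12) + 1 := by
  refine (sp_foldL' (fun l' (so : So) => (∀ x ∈ l', x ∈ V) ∧ ∃ n, so.2 = n ++ o ∧
      n.length + 3 * l'.length ≤ 3 * l.length ∧ Off V s so.1 n ∧ Inv F V wt K M so.1 ∧
      Same s so.1 ∧ (∀ x ∈ l, x ∈ l' ∨ so.1.Vt x))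
    (fun _ => 10 * K + 11) ?_ ⟨hl, [], rfl, by simp, Off.refl V s, I, Same.refl s,
      fun _ h => Or.inl h⟩).mono ?_
  · rintro a l' ⟨s1, o1⟩ ⟨h0, n, rfl, h2, h3, h4, h5, h6⟩
    refine (sp_soft _ hW h4 (h0 a List.mem_cons_self) hfu).mono ?_
    rintro ⟨s2, o2⟩ t ⟨⟨n', rfl, k2, k3⟩, k4, k6, k5, k8⟩
    refine ⟨⟨fun x hx => h0 x (List.mem_cons_of_mem _ hx), n' ++ n, (List.append_assoc _ _ _).symm,
      by simp only [List.length_append, List.length_cons] at h2 ⊢; omega, h3.trans k3, k4,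
      h5.trans k5, fun x hx => ?_⟩, k8⟩
    rcases h6 x hx with j | j
    · rcases List.mem_cons.1 j with rfl | j
      · exact Or.inr k6
      · exact Or.inl j
    · exact Or.inr (k5.vt x j)
  · rintro so t ⟨⟨-, n, h1, h2, h3, h4, h5, h6⟩, ht⟩
    exact ⟨⟨n, h1, by simpa using h2, h3⟩, h4, fun x hx => by simpa using h6 x hx, h5,
      by simpa using ht⟩

@[fun_prop] theorem impl_softs {α : Type} [Rp α] {F : α → Fo} {n : α → ℕ} {l : α → List ℕ}
    {so : α → So} (hF : Pu true F) (hn : Pu true n) (hl : Pu true l) (hs : Pu true so) :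
    Impl fun a => softs (F a) (n a) (l a) (so a) := by
  impl

end Crest.Agent.N325.Pc
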